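import Mathlib.Analysis.InnerProductSpace.PiL2
import Mathlib.MeasureTheory.Function.Floor
import Mathlib.MeasureTheory.Measure.Haar.InnerProductSpace
import Mathlib.MeasureTheory.Measure.Lebesgue.VolumeOfBalls
import Mathlib.Topology.MetricSpace.HausdorffDimension
import Mathlib.Analysis.SpecialFunctions.Pow.Asymptotics
import Mathlib.Algebra.Order.Floor.Semifield
import Mathlib.Data.List.GetD
import Mathlib.Tactic

/-! Distinct distances of sets of nearly minimal spread: basic definitions (helper352). -/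

namespace Vale.Agent.P054.Spread

open Set Metric Finset
open scoped ENNReal NNReal

/-- `ℝ^d` -/
abbrev Ed (d : ℕ) := EuclideanSpace ℝ (Fin d)

variable {d : ℕ}

/-- the dyadic cell of generation `a` of the point `x` -/
noncomputable def cell (a : ℕ) (x : Ed d) : Fin d → ℤ := fun i => ⌊(2:ℝ) ^ a * x i⌋

/-- the points of the half-open unit cube -/
def UCube (x : Ed d) : Prop := ∀ i, 0 ≤ x i ∧ x i < 1

/-- the points of `P` in the cell `κ` of generation `a` -/
noncomputable def inCell (P : Finset (Ed d)) (a : ℕ) (κ : Fin d → ℤ) : Finset (Ed d) :=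
  P.filter fun p => cell a p = κ

/-- the points of `P` in a closed ball -/
noncomputable def inBall (P : Finset (Ed d)) (x : Ed d) (u : ℝ) : Finset (Ed d) := by
  classical exact P.filter fun p => dist p x ≤ u

/-- the distinct distances of `P` -/
noncomputable def dset (P : Finset (Ed d)) : Finset ℝ := by
  classical exact (P.offDiag).image fun z => dist z.1 z.2

theorem mem_inCell {P : Finset (Ed d)} {a : ℕ} {κ : Fin d → ℤ} {p : Ed d} :
    p ∈ inCell P a κ ↔ p ∈ P ∧ cell a p = κ := by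
  simp [inCell]

theorem mem_inBall {P : Finset (Ed d)} {x : Ed d} {u : ℝ} {p : Ed d} :
    p ∈ inBall P x u ↔ p ∈ P ∧ dist p x ≤ u := by
  simp [inBall]

theorem mem_dset {P : Finset (Ed d)} {t : ℝ} :
    t ∈ dset P ↔ ∃ p ∈ P, ∃ q ∈ P, p ≠ q ∧ dist p q = t := by
  classical
  unfold dset
  simp only [Finset.mem_image, Finset.mem_offDiag, Prod.exists]
  constructor
  · rintro ⟨a, b, ⟨ha, hb, hab⟩, rfl⟩
    exact ⟨a, ha, b, hb, hab, rfl⟩
  · rintro ⟨a, ha, b, hb, hab, rfl⟩
    exact ⟨a, b, ⟨ha, hb, hab⟩, rfl⟩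

theorem coord_le_dist (x y : Ed d) (i : Fin d) : |x i - y i| ≤ dist x y := by
  rw [EuclideanSpace.dist_eq]
  refine Real.le_sqrt_of_sq_le ?_
  rw [← Real.dist_eq]
  exact Finset.single_le_sum (f := fun i => dist (x i) (y i) ^ 2) (fun j _ => sq_nonneg _)
    (Finset.mem_univ i)

theorem dist_le_of_coord {x y : Ed d} {r : ℝ} (hr : 0 ≤ r) (h : ∀ i, |x i - y i| ≤ r) :
    dist x y ≤ Real.sqrt d * r := by
  rw [EuclideanSpace.dist_eq]
  have h1 : ∑ i, dist (x i) (y i) ^ 2 ≤ d * r ^ 2 := by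
    calc ∑ i, dist (x i) (y i) ^ 2 ≤ ∑ _i : Fin d, r ^ 2 := by
          refine Finset.sum_le_sum fun i _ => ?_
          rw [Real.dist_eq]
          exact pow_le_pow_left₀ (abs_nonneg _) (h i) 2
      _ = d * r ^ 2 := by simp
  calc Real.sqrt (∑ i, dist (x i) (y i) ^ 2) ≤ Real.sqrt (d * r ^ 2) := Real.sqrt_le_sqrt h1
    _ = Real.sqrt d * r := by
        rw [Real.sqrt_mul (by positivity), Real.sqrt_sq hr]

theorem dist_le_of_cell_eq {a : ℕ} {x y : Ed d} (h : cell a x = cell a y) :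
    dist x y ≤ Real.sqrt d * (2:ℝ)⁻¹ ^ a := by
  refine dist_le_of_coord (by positivity) fun i => ?_
  have h1 : ⌊(2:ℝ) ^ a * x i⌋ = ⌊(2:ℝ) ^ a * y i⌋ := congrFun h i
  have h2 := Int.abs_sub_lt_one_of_floor_eq_floor h1
  have h3 : (2:ℝ) ^ a * |x i - y i| < 1 := by
    rw [← mul_sub, abs_mul, abs_of_pos (by positivity : (0:ℝ) < 2 ^ a)] at h2
    exact h2
  rw [inv_pow, ← one_div, le_div_iff₀ (by positivity)]
  linarith

end Vale.Agent.P054.Spread
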