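import Vale.Agent.P054.Spread.Basic

/-! Distinct distances of sets of nearly minimal spread: the Cantor construction (helper352). -/

namespace Vale.Agent.P054.Spread

open Set Metric Finset MeasureTheory Filter
open scoped ENNReal NNReal Topology

variable {d : ℕ}

/-- one stage of the construction -/
structure Stage (d : ℕ) (s C : ℝ) (a : ℕ) (θ : ℝ) where
  P : Finset (Ed d)
  N : ℕ
  δ : ℝ
  δpos : 0 < δ
  δle : δ ≤ θ
  Npos : 1 ≤ N
  NS : 1 ≤ (N:ℝ) * δ ^ s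
  unit : ∀ p ∈ P, UCube p
  full : ∀ x : Ed d, UCube x → N ≤ (inCell P a (cell a x)).card
  sep : ∀ p ∈ P, ∀ q ∈ P, p ≠ q → Real.sqrt d * δ < dist p q
  upper : ∀ (x : Ed d) (u : ℝ), δ ≤ u → u ≤ 6 * (d + 1) * (2:ℝ)⁻¹ ^ a →
    ((inBall P x u).card : ℝ) ≤ C * (1 + N * ((2:ℝ) ^ a * u) ^ s)
  few : ((dset P).card : ℝ) * δ ≤ θ

theorem exists_gen {ρ : ℝ} (h0 : 0 < ρ) (h1 : ρ ≤ 1) :
    ∃ a : ℕ, (2:ℝ)⁻¹ ^ a ≤ ρ ∧ ρ ≤ 2 * (2:ℝ)⁻¹ ^ a := by
  classical
  have hex : ∃ a : ℕ, (2:ℝ)⁻¹ ^ a ≤ ρ := by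
    obtain ⟨a, ha⟩ := exists_pow_lt_of_lt_one h0 (by norm_num : (2:ℝ)⁻¹ < 1)
    exact ⟨a, ha.le⟩
  refine ⟨Nat.find hex, Nat.find_spec hex, ?_⟩
  rcases Nat.eq_zero_or_pos (Nat.find hex) with h | h
  · rw [h]
    simp
    linarith
  · have h2 := Nat.find_min hex (m := Nat.find hex - 1) (by omega)
    push Not at h2
    have h3 : (2:ℝ)⁻¹ ^ (Nat.find hex) = (2:ℝ)⁻¹ ^ (Nat.find hex - 1) * 2⁻¹ := by
      rw [← pow_succ]
      congr 1
      omega
    rw [h3]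
    linarith

/-- the sequence of stages -/
theorem exists_seq {s C : ℝ} (St : ∀ (a : ℕ) (θ : ℝ), 0 < θ → Nonempty (Stage d s C a θ)) :
    ∃ (ρ : ℕ → ℝ) (a : ℕ → ℕ) (S : ∀ n, Stage d s C (a n) (ρ n / 2)), ρ 0 = 1 ∧
      (∀ n, 0 < ρ n) ∧ (∀ n, ρ (n + 1) = (S n).δ) ∧
      ∀ n, (2:ℝ)⁻¹ ^ (a n) ≤ ρ n ∧ ρ n ≤ 2 * (2:ℝ)⁻¹ ^ (a n) := by
  classical
  choose ag hag using fun (r : {ρ : ℝ // 0 < ρ ∧ ρ ≤ 1}) => exists_gen r.2.1 r.2.2
  let SS : ∀ r : {ρ : ℝ // 0 < ρ ∧ ρ ≤ 1}, Stage d s C (ag r) (r.1 / 2) := fun r =>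
    (St (ag r) (r.1 / 2) (by have := r.2.1; positivity)).some
  let nxt : {ρ : ℝ // 0 < ρ ∧ ρ ≤ 1} → {ρ : ℝ // 0 < ρ ∧ ρ ≤ 1} := fun r =>
    ⟨(SS r).δ, (SS r).δpos, by
      have h1 := (SS r).δle
      have h2 := r.2.2
      have h3 := r.2.1
      linarith⟩
  let rr : ℕ → {ρ : ℝ // 0 < ρ ∧ ρ ≤ 1} := fun n => nxt^[n] ⟨1, by norm_num⟩
  have hrr : ∀ n, rr (n + 1) = nxt (rr n) := fun n => Function.iterate_succ_apply' nxt n _
  refine ⟨fun n => (rr n).1, fun n => ag (rr n), fun n => SS (rr n), rfl, fun n => (rr n).2.1,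
    fun n => ?_, fun n => hag (rr n)⟩
  show (rr (n + 1)).1 = (SS (rr n)).δ
  rw [hrr n]

/-- the `m`-th element of a finite set -/
noncomputable def pick (F : Finset (Ed d)) (m : ℕ) : Ed d := F.toList.getD m 0

theorem pick_mem {F : Finset (Ed d)} {m : ℕ} (hm : m < F.card) : pick F m ∈ F := by
  unfold pick
  have h : m < F.toList.length := by simpa using hm
  rw [List.getD_eq_getElem _ _ h]
  exact Finset.mem_toList.1 (List.getElem_mem h)

theorem pick_inj {F : Finset (Ed d)} {m m' : ℕ} (hm : m < F.card) (hm' : m' < F.card)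
    (h : pick F m = pick F m') : m = m' := by
  unfold pick at h
  have h1 : m < F.toList.length := by simpa using hm
  have h2 : m' < F.toList.length := by simpa using hm'
  rw [List.getD_eq_getElem _ _ h1, List.getD_eq_getElem _ _ h2] at h
  exact (List.Nodup.getElem_inj_iff (Finset.nodup_toList F)).1 h

/-- enumeration of the nodes of level `j` -/
noncomputable def ee (P : ℕ → Finset (Ed d)) (a N : ℕ → ℕ) : ℕ → ℕ → Ed d
  | 0, _ => 0
  | j + 1, k => pick (inCell (P j) (a j) (cell (a j) (ee P a N j (k / N j)))) (k % N j)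

/-- number of nodes of level `j` -/
def DD (N : ℕ → ℕ) : ℕ → ℕ
  | 0 => 1
  | j + 1 => DD N j * N j

theorem DD_pos {N : ℕ → ℕ} (hN : ∀ j, 1 ≤ N j) (j : ℕ) : 0 < DD N j := by
  induction j with
  | zero => exact Nat.one_pos
  | succ j ih => exact Nat.mul_pos ih (hN j)

section Con

variable {s C : ℝ} {ρ : ℕ → ℝ} {a : ℕ → ℕ} (S : ∀ n, Stage d s C (a n) (ρ n / 2))

/-- nodes -/
noncomputable def E (j k : ℕ) : Ed d := ee (fun n => (S n).P) a (fun n => (S n).N) j k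

/-- number of nodes -/
def Dn (j : ℕ) : ℕ := DD (fun n => (S n).N) j

theorem Dn_pos (j : ℕ) : 0 < Dn S j := DD_pos (fun n => (S n).Npos) j

theorem Dn_succ (j : ℕ) : Dn S (j + 1) = Dn S j * (S j).N := rfl

theorem Dn_zero : Dn S 0 = 1 := rfl

theorem E_succ (j k : ℕ) : E S (j + 1) k =
    pick (inCell (S j).P (a j) (cell (a j) (E S j (k / (S j).N)))) (k % (S j).N) := rfl

theorem div_lt {j k : ℕ} (hk : k < Dn S (j + 1)) : k / (S j).N < Dn S j := by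
  rw [Dn_succ] at hk
  exact Nat.div_lt_of_lt_mul (by rwa [mul_comm] at hk)

theorem mod_lt' (j k : ℕ) : k % (S j).N < (S j).N := Nat.mod_lt _ (S j).Npos

theorem E_unit (j : ℕ) : ∀ k, k < Dn S j → UCube (E S j k) := by
  induction j with
  | zero =>
    intro k _ i
    show 0 ≤ (0 : Ed d) i ∧ (0 : Ed d) i < 1
    simp
  | succ j ih =>
    intro k hk
    have h1 := ih _ (div_lt S hk)
    have h2 := (S j).full _ h1
    have h3 := pick_mem (lt_of_lt_of_le (mod_lt' S j k) h2)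
    rw [← E_succ] at h3
    exact (S j).unit _ (mem_inCell.1 h3).1

theorem E_mem {j k : ℕ} (hk : k < Dn S (j + 1)) :
    E S (j + 1) k ∈ (S j).P ∧ cell (a j) (E S (j + 1) k) = cell (a j) (E S j (k / (S j).N)) := by
  have h2 := (S j).full _ (E_unit S j _ (div_lt S hk))
  have h3 := pick_mem (lt_of_lt_of_le (mod_lt' S j k) h2)
  rw [← E_succ] at h3
  exact mem_inCell.1 h3

variable {S}

theorem E_inj (hρ : ∀ n, ρ (n + 1) = (S n).δ) (ha : ∀ n, (2:ℝ)⁻¹ ^ (a n) ≤ ρ n) (j : ℕ) :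
    ∀ k l, k < Dn S j → l < Dn S j → E S j k = E S j l → k = l := by
  induction j with
  | zero =>
    intro k l hk hl _
    rw [Dn_zero] at hk hl
    omega
  | succ j ih =>
    intro k l hk hl h
    have hk' := E_mem S hk
    have hl' := E_mem S hl
    have h1 : cell (a j) (E S j (k / (S j).N)) = cell (a j) (E S j (l / (S j).N)) := by
      rw [← hk'.2, ← hl'.2, h]
    have h2 : E S j (k / (S j).N) = E S j (l / (S j).N) := by
      rcases j with _ | j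
      · rfl
      · by_contra hne
        have h3 := dist_le_of_cell_eq h1
        have h4 := (S j).sep _ (E_mem S (div_lt S hk)).1 _ (E_mem S (div_lt S hl)).1 hne
        have h5 := ha (j + 1)
        rw [hρ j] at h5
        have h6 : Real.sqrt d * (2:ℝ)⁻¹ ^ (a (j + 1)) ≤ Real.sqrt d * (S j).δ :=
          mul_le_mul_of_nonneg_left h5 (Real.sqrt_nonneg _)
        linarith
    have h3 := ih _ _ (div_lt S hk) (div_lt S hl) h2
    have h4 := (S j).full _ (E_unit S j _ (div_lt S hk))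
    rw [E_succ, E_succ, ← h2] at h
    have h5 := pick_inj (lt_of_lt_of_le (mod_lt' S j k) h4) (lt_of_lt_of_le (mod_lt' S j l) h4) h
    rw [← Nat.div_add_mod k (S j).N, ← Nat.div_add_mod l (S j).N, h3, h5]

theorem rho_half (hρ : ∀ n, ρ (n + 1) = (S n).δ) (n : ℕ) : ρ (n + 1) ≤ ρ n / 2 := by
  rw [hρ]
  exact (S n).δle

theorem rho_le (hρ : ∀ n, ρ (n + 1) = (S n).δ) (j m : ℕ) :
    ρ (j + m) ≤ ρ j * (2:ℝ)⁻¹ ^ m := by
  induction m with
  | zero => simp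
  | succ m ih =>
    have := rho_half hρ (j + m)
    rw [pow_succ, ← add_assoc]
    linarith

variable (S)

/-- approximation of level `j` -/
noncomputable def gj (j : ℕ) (t : ℝ) : Ed d := E S j ⌊(Dn S j : ℝ) * Int.fract t⌋₊

theorem floor_lt (j : ℕ) (t : ℝ) : ⌊(Dn S j : ℝ) * Int.fract t⌋₊ < Dn S j := by
  have h0 : (0:ℝ) < Dn S j := by exact_mod_cast Dn_pos S j
  rw [Nat.floor_lt (mul_nonneg h0.le (Int.fract_nonneg t))]
  have := Int.fract_lt_one t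
  nlinarith

theorem floor_div (j : ℕ) (t : ℝ) :
    ⌊(Dn S (j + 1) : ℝ) * Int.fract t⌋₊ / (S j).N = ⌊(Dn S j : ℝ) * Int.fract t⌋₊ := by
  rw [← Nat.floor_div_natCast]
  congr 1
  have h : ((S j).N : ℝ) ≠ 0 := by
    have := (S j).Npos
    positivity
  rw [Dn_succ]
  push_cast
  field_simp

theorem gj_mem (j : ℕ) (t : ℝ) : gj S (j + 1) t ∈ (S j).P := (E_mem S (floor_lt S (j + 1) t)).1

theorem gj_dist (ha : ∀ n, (2:ℝ)⁻¹ ^ (a n) ≤ ρ n) (j : ℕ) (t : ℝ) :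
    dist (gj S (j + 1) t) (gj S j t) ≤ Real.sqrt d * ρ j := by
  have h1 := (E_mem S (floor_lt S (j + 1) t)).2
  rw [floor_div] at h1
  exact (dist_le_of_cell_eq h1).trans (mul_le_mul_of_nonneg_left (ha j) (Real.sqrt_nonneg _))

variable {S}

theorem gj_dist' (hρ : ∀ n, ρ (n + 1) = (S n).δ) (ha : ∀ n, (2:ℝ)⁻¹ ^ (a n) ≤ ρ n) (j m : ℕ)
    (t : ℝ) : dist (gj S (j + m) t) (gj S j t) ≤ 2 * Real.sqrt d * ρ j * (1 - (2:ℝ)⁻¹ ^ m) := by
  induction m with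
  | zero => simp
  | succ m ih =>
    have h1 := gj_dist S ha (j + m) t
    have h2 := rho_le hρ j m
    have h3 := dist_triangle (gj S (j + m + 1) t) (gj S (j + m) t) (gj S j t)
    have h4 : Real.sqrt d * ρ (j + m) ≤ Real.sqrt d * (ρ j * (2:ℝ)⁻¹ ^ m) :=
      mul_le_mul_of_nonneg_left h2 (Real.sqrt_nonneg _)
    rw [← add_assoc, pow_succ]
    linarith

theorem rho_tendsto (h0 : ∀ n, 0 < ρ n) (hρ : ∀ n, ρ (n + 1) = (S n).δ) :
    Tendsto ρ atTop (𝓝 0) := by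
  have h1 : Tendsto (fun n : ℕ => ρ 0 * (2:ℝ)⁻¹ ^ n) atTop (𝓝 (ρ 0 * 0)) :=
    (tendsto_pow_atTop_nhds_zero_of_lt_one (by norm_num) (by norm_num)).const_mul _
  rw [mul_zero] at h1
  refine squeeze_zero (fun n => (h0 n).le) (fun n => ?_) h1
  have := rho_le hρ 0 n
  simpa using this

theorem gj_cauchy (h0 : ∀ n, 0 < ρ n) (hρ : ∀ n, ρ (n + 1) = (S n).δ)
    (ha : ∀ n, (2:ℝ)⁻¹ ^ (a n) ≤ ρ n) (t : ℝ) : CauchySeq fun j => gj S j t := by
  refine cauchySeq_of_le_tendsto_0 (fun j => 4 * Real.sqrt d * ρ j) (fun n m N hn hm => ?_) ?_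
  · have key : ∀ n, N ≤ n → dist (gj S n t) (gj S N t) ≤ 2 * Real.sqrt d * ρ N := by
      intro n hn
      obtain ⟨m, rfl⟩ := Nat.exists_eq_add_of_le hn
      refine (gj_dist' hρ ha N m t).trans ?_
      have h1 : (0:ℝ) ≤ (2:ℝ)⁻¹ ^ m := by positivity
      have h2 : 0 ≤ 2 * Real.sqrt d * ρ N := by
        have := (h0 N).le
        positivity
      nlinarith
    have h1 := key n hn
    have h2 := key m hm
    have h3 := dist_triangle_right (gj S n t) (gj S m t) (gj S N t)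
    linarith
  · have := (rho_tendsto h0 hρ).const_mul (4 * Real.sqrt d)
    simpa using this

variable (S)

/-- the limit map -/
noncomputable def gl (t : ℝ) : Ed d := limUnder atTop fun j => gj S j t

variable {S}

theorem gl_tendsto (h0 : ∀ n, 0 < ρ n) (hρ : ∀ n, ρ (n + 1) = (S n).δ)
    (ha : ∀ n, (2:ℝ)⁻¹ ^ (a n) ≤ ρ n) (t : ℝ) :
    Tendsto (fun j => gj S j t) atTop (𝓝 (gl S t)) :=
  (gj_cauchy h0 hρ ha t).tendsto_limUnder

theorem gl_dist (h0 : ∀ n, 0 < ρ n) (hρ : ∀ n, ρ (n + 1) = (S n).δ)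
    (ha : ∀ n, (2:ℝ)⁻¹ ^ (a n) ≤ ρ n) (j : ℕ) (t : ℝ) :
    dist (gl S t) (gj S j t) ≤ 2 * Real.sqrt d * ρ j := by
  have h1 : Tendsto (fun m => dist (gj S m t) (gj S j t)) atTop
      (𝓝 (dist (gl S t) (gj S j t))) := (gl_tendsto h0 hρ ha t).dist tendsto_const_nhds
  refine le_of_tendsto h1 (eventually_atTop.2 ⟨j, fun n hn => ?_⟩)
  obtain ⟨m, rfl⟩ := Nat.exists_eq_add_of_le hn
  refine (gj_dist' hρ ha j m t).trans ?_
  have h1 : (0:ℝ) ≤ (2:ℝ)⁻¹ ^ m := by positivity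
  have h2 : 0 ≤ 2 * Real.sqrt d * ρ j := by
    have := (h0 j).le
    positivity
  nlinarith

theorem gj_measurable (j : ℕ) : Measurable (gj S j) := by
  unfold gj
  refine (measurable_from_nat (f := fun k => E S j k)).comp ?_
  exact Nat.measurable_floor.comp (measurable_const.mul measurable_fract)

theorem gl_measurable (h0 : ∀ n, 0 < ρ n) (hρ : ∀ n, ρ (n + 1) = (S n).δ)
    (ha : ∀ n, (2:ℝ)⁻¹ ^ (a n) ≤ ρ n) : Measurable (gl S) :=
  measurable_of_tendsto_metrizable (fun j => gj_measurable j)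
    (tendsto_pi_nhds.2 fun t => gl_tendsto h0 hρ ha t)

variable (S)

/-- the measure -/
noncomputable def mu : Measure (Ed d) := (volume.restrict (Ico (0:ℝ) 1)).map (gl S)

/-- the compact set -/
def KK (ρ : ℕ → ℝ) (S : ∀ n, Stage d s C (a n) (ρ n / 2)) : Set (Ed d) :=
  ⋂ j : ℕ, ⋃ p ∈ (S j).P, closedBall p (2 * Real.sqrt d * ρ (j + 1))

theorem KK_compact : IsCompact (KK ρ S) := by
  unfold KK
  have h1 : ∀ j, IsCompact (⋃ p ∈ (S j).P, closedBall p (2 * Real.sqrt d * ρ (j + 1))) :=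
    fun j => (S j).P.isCompact_biUnion fun p _ => isCompact_closedBall p _
  exact (h1 0).of_isClosed_subset (isClosed_iInter fun j => (h1 j).isClosed) (iInter_subset _ 0)

variable {S}

theorem gl_mem_KK (h0 : ∀ n, 0 < ρ n) (hρ : ∀ n, ρ (n + 1) = (S n).δ)
    (ha : ∀ n, (2:ℝ)⁻¹ ^ (a n) ≤ ρ n) (t : ℝ) : gl S t ∈ KK ρ S := by
  unfold KK
  refine mem_iInter.2 fun j => ?_
  refine mem_iUnion₂.2 ⟨gj S (j + 1) t, gj_mem S j t, ?_⟩
  exact gl_dist h0 hρ ha (j + 1) t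

theorem mu_KK (h0 : ∀ n, 0 < ρ n) (hρ : ∀ n, ρ (n + 1) = (S n).δ)
    (ha : ∀ n, (2:ℝ)⁻¹ ^ (a n) ≤ ρ n) : mu S (KK ρ S) = 1 := by
  unfold mu
  rw [Measure.map_apply (gl_measurable h0 hρ ha) (KK_compact S).isClosed.measurableSet]
  have h1 : gl S ⁻¹' KK ρ S = univ := eq_univ_of_forall fun t => gl_mem_KK h0 hρ ha t
  rw [h1]
  simp

end Con

end Vale.Agent.P054.Spread
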