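import Vale.Agent.P054.Spread.Of

/-! Distinct distances of sets of nearly minimal spread: main theorems (helper352). -/

namespace Vale.Agent.P054.Spread

open Set Metric Finset Filter MeasureTheory
open scoped Topology ENNReal

variable {d : ℕ}

/-- Falconer's theorem implies the distinct distances theorem for sets of nearly minimal spread -/
theorem spread_main (hd : 2 ≤ d) (hF : Falc d) {ε : ℝ} (hε : 0 < ε) :
    ∃ η : ℝ, 0 < η ∧ ∃ c : ℝ, 0 < c ∧ ∀ (P : Finset (Ed d)) (r : ℝ), 2 ≤ P.card → 0 < r →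
      (∀ p ∈ P, ∀ q ∈ P, p ≠ q → r ≤ dist p q) →
      (∀ p ∈ P, ∀ q ∈ P, dist p q ≤ r * (P.card : ℝ) ^ ((1:ℝ) / d + η)) →
      c * (P.card : ℝ) ^ ((2:ℝ) / d - ε) ≤ (dset P).card := by
  by_contra hcon
  have hd2 : (2:ℝ) ≤ d := by exact_mod_cast hd
  have hd0 : (0:ℝ) < d := by linarith
  set ε' : ℝ := min ε (1 / d) with hε'
  have hε'0 : 0 < ε' := lt_min hε (by positivity)
  have hε'd : ε' * d ≤ 1 := by
    rw [← le_div_iff₀ hd0]
    exact min_le_right _ _
  have hε'ε : ε' ≤ ε := min_le_left _ _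
  have hbad : ∀ η > 0, ∀ c > 0, Bad d ε' η c := by
    intro η hη c hc
    by_contra hnb
    refine hcon ⟨η, hη, c, hc, fun P r hP hr hsep hR => ?_⟩
    by_contra hlt
    push Not at hlt
    refine hnb ⟨P, r, r * (P.card : ℝ) ^ ((1:ℝ) / d + η), hP, hr, hsep, hR, le_rfl, ?_⟩
    refine hlt.trans_le ?_
    apply mul_le_mul_of_nonneg_left _ hc.le
    apply Real.rpow_le_rpow_of_exponent_le
    · have : (2:ℝ) ≤ P.card := by exact_mod_cast hP
      linarith
    · linarith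
  have hs : (d:ℝ) / 2 < (d:ℝ) / 2 * (1 + ε' * d / 8) := by
    have : 0 < (d:ℝ) / 2 * (ε' * d / 8) := by positivity
    linarith
  exact cantor_false hF hs (by positivity) (fun a θ hθ => stage_of hd hε'0 hε'd hbad a θ hθ)

/-- a maximal separated subset -/
theorem exists_sep (P : Finset (Ed d)) {ρ : ℝ} (hρ : 0 < ρ) :
    ∃ P' ⊆ P, (∀ p ∈ P', ∀ q ∈ P', p ≠ q → ρ ≤ dist p q) ∧
      ∀ y ∈ P, ∃ p ∈ P', dist y p ≤ ρ := by
  classical
  obtain ⟨P', hP', hmax⟩ := Finset.exists_max_image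
    (P.powerset.filter fun A => ∀ p ∈ A, ∀ q ∈ A, p ≠ q → ρ ≤ dist p q) (fun A => A.card)
    ⟨∅, by simp⟩
  rw [Finset.mem_filter, Finset.mem_powerset] at hP'
  refine ⟨P', hP'.1, hP'.2, fun y hy => ?_⟩
  by_contra hcon
  push Not at hcon
  have hyP : y ∉ P' := by
    intro h
    have := hcon y h
    rw [dist_self] at this
    linarith
  have h1 := hmax (insert y P') (by
    rw [Finset.mem_filter, Finset.mem_powerset]
    refine ⟨Finset.insert_subset hy hP'.1, fun p hp q hq hpq => ?_⟩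
    rw [Finset.mem_insert] at hp hq
    rcases hp with rfl | hp <;> rcases hq with rfl | hq
    · exact absurd rfl hpq
    · exact (hcon q hq).le
    · rw [dist_comm]
      exact (hcon p hp).le
    · exact hP'.2 p hp q hq hpq)
  rw [Finset.card_insert_of_notMem hyP] at h1
  omega

theorem dset_mono {P Q : Finset (Ed d)} (h : P ⊆ Q) : (dset P).card ≤ (dset Q).card := by
  refine Finset.card_le_card fun t ht => ?_
  obtain ⟨p, hp, q, hq, hpq, rfl⟩ := mem_dset.1 ht
  exact mem_dset.2 ⟨p, h hp, q, h hq, hpq, rfl⟩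

/-- volume bound for a covering of a ball -/
theorem card_cover (P : Finset (Ed d)) (x : Ed d) {R τ : ℝ} (hR : 0 ≤ R) (hτ : 0 < τ)
    (h : ∀ y ∈ closedBall x R, ∃ p ∈ P, dist y p ≤ τ) : (R / τ) ^ d ≤ P.card := by
  have hsub : closedBall x R ⊆ ⋃ p ∈ P, closedBall p τ := by
    intro y hy
    obtain ⟨p, hp, hyp⟩ := h y hy
    exact mem_iUnion₂.2 ⟨p, hp, hyp⟩
  have h1 : volume (closedBall x R) ≤ ∑ p ∈ P, volume (closedBall p τ) :=
    (measure_mono hsub).trans (measure_biUnion_finset_le _ _)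
  have h2 : ∀ p ∈ P, volume (closedBall p τ) =
      ENNReal.ofReal (τ ^ d) * volume (ball (0 : Ed d) 1) := by
    intro p _
    rw [Measure.addHaar_closedBall _ _ hτ.le]
    simp
  rw [Finset.sum_congr rfl h2, Measure.addHaar_closedBall _ _ hR, Finset.sum_const,
    nsmul_eq_mul, ← mul_assoc, finrank_euclideanSpace, Fintype.card_fin] at h1
  have hV0 : volume (ball (0 : Ed d) 1) ≠ 0 := (measure_ball_pos _ _ one_pos).ne'
  have hVt : volume (ball (0 : Ed d) 1) ≠ ⊤ := measure_ball_lt_top.ne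
  have h3 := (ENNReal.mul_le_mul_iff_left hV0 hVt).1 h1
  rw [← ENNReal.ofReal_natCast, ← ENNReal.ofReal_mul (by positivity)] at h3
  have h4 := (ENNReal.ofReal_le_ofReal_iff (by positivity)).1 h3
  rw [div_pow, div_le_iff₀ (by positivity)]
  exact h4

/-- a finite set which is `ρ`-dense in a ball of radius `R > ρ` has two points -/
theorem two_le_card (hd : 1 ≤ d) {P : Finset (Ed d)} {x : Ed d} {R ρ : ℝ} (hρ : 0 < ρ)
    (hρR : ρ < R) (h : ∀ y ∈ closedBall x R, ∃ p ∈ P, dist y p ≤ ρ) : 2 ≤ P.card := by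
  by_contra hlt
  have hcard : P.card ≤ 1 := by omega
  have : NeZero d := ⟨by omega⟩
  set e : Ed d := EuclideanSpace.single 0 (1:ℝ) with he
  have hen : ‖e‖ = 1 := by simp [he]
  obtain ⟨p, hp, hp'⟩ := h (x + R • e) (by
    rw [mem_closedBall, dist_eq_norm, add_sub_cancel_left, norm_smul, hen,
      Real.norm_of_nonneg (by linarith), mul_one])
  obtain ⟨q, hq, hq'⟩ := h (x - R • e) (by
    rw [mem_closedBall, dist_eq_norm, sub_sub_cancel_left, norm_neg, norm_smul, hen,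
      Real.norm_of_nonneg (by linarith), mul_one])
  have hpq : p = q := Finset.card_le_one.1 hcard p hp q hq
  rw [hpq] at hp'
  have h1 : dist (x + R • e) (x - R • e) = 2 * R := by
    rw [dist_eq_norm]
    have : x + R • e - (x - R • e) = (2 * R) • e := by
      rw [two_mul, add_smul]
      abel
    rw [this, norm_smul, hen, Real.norm_of_nonneg (by linarith), mul_one]
  have h2 := dist_triangle_right (x + R • e) (x - R • e) q
  linarith

/-- Falconer's theorem implies the distinct distances theorem for sets dense in a ball -/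
theorem dense_main (hd : 2 ≤ d) (hF : Falc d) {ε : ℝ} (hε : 0 < ε) :
    ∃ c : ℝ, 0 < c ∧ ∀ (P : Finset (Ed d)) (x : Ed d) (R ρ : ℝ), 0 < ρ → ρ < R →
      (∀ y ∈ closedBall x R, ∃ p ∈ P, dist y p ≤ ρ) →
      c * (R / ρ) ^ ((2:ℝ) - ε) ≤ (dset P).card := by
  classical
  have hd2 : (2:ℝ) ≤ d := by exact_mod_cast hd
  have hd0 : (0:ℝ) < d := by linarith
  set ε₂ : ℝ := min ε 1 with hε₂
  have hε₂0 : 0 < ε₂ := lt_min hε one_pos
  have hε₂1 : ε₂ ≤ 1 := min_le_right _ _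
  obtain ⟨η, hη, c, hc, hmain⟩ := spread_main hd hF (ε := ε₂ / d) (by positivity)
  -- threshold for the number of points
  set n₁ : ℝ := (8:ℝ) ^ (1 / η) with hn₁
  have hn₁1 : 1 ≤ n₁ := Real.one_le_rpow (by norm_num) (by positivity)
  set M : ℝ := (2 * n₁ ^ ((1:ℝ) / d)) ^ (2:ℝ) with hM
  have hM0 : 0 < M := by positivity
  refine ⟨min (1 / M) (c * (1 / 2) ^ ((2:ℝ) - ε₂)), lt_min (by positivity) (by positivity),
    fun P x R ρ hρ hρR hdense => ?_⟩
  have hR0 : 0 < R := by linarith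
  have hRρ : 1 ≤ R / ρ := by rw [one_le_div hρ]; exact hρR.le
  have hle : (R / ρ) ^ ((2:ℝ) - ε) ≤ (R / ρ) ^ ((2:ℝ) - ε₂) := by
    apply Real.rpow_le_rpow_of_exponent_le hRρ
    have := min_le_left ε 1
    linarith
  -- the separated subset
  obtain ⟨P', hP'sub, hP'sep, hP'near⟩ := exists_sep (P.filter fun p => dist p x ≤ 2 * R) hρ
  have hP'P : P' ⊆ P := fun p hp => (Finset.mem_filter.1 (hP'sub hp)).1
  have hcover : ∀ y ∈ closedBall x R, ∃ p ∈ P', dist y p ≤ 2 * ρ := by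
    intro y hy
    obtain ⟨p, hp, hyp⟩ := hdense y hy
    have h1 : dist p x ≤ 2 * R := by
      have h2 := dist_triangle_left p x y
      rw [mem_closedBall] at hy
      linarith
    obtain ⟨q, hq, hpq⟩ := hP'near p (Finset.mem_filter.2 ⟨hp, h1⟩)
    have h3 := dist_triangle y p q
    exact ⟨q, hq, by linarith⟩
  have hcard := card_cover P' x hR0.le (by positivity : 0 < 2 * ρ) hcover
  have hone : (1:ℝ) ≤ (dset P).card := by
    exact_mod_cast one_le_dset (two_le_card (by omega) hρ hρR hdense)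
  rcases le_or_gt n₁ (P'.card : ℝ) with hn | hn
  · -- many points
    have hn8 : 8 ≤ (P'.card : ℝ) ^ η := by
      calc (8:ℝ) = n₁ ^ η := by
            rw [hn₁, ← Real.rpow_mul (by norm_num)]
            rw [one_div_mul_cancel hη.ne', Real.rpow_one]
        _ ≤ _ := Real.rpow_le_rpow (by positivity) hn hη.le
    have hP'0 : (0:ℝ) < P'.card := by linarith
    have hroot : R / (2 * ρ) ≤ (P'.card : ℝ) ^ ((1:ℝ) / d) := by
      have h1 : R / (2 * ρ) = ((R / (2 * ρ)) ^ d) ^ ((1:ℝ) / d) := by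
        rw [← Real.rpow_natCast, ← Real.rpow_mul (by positivity)]
        rw [mul_one_div_cancel hd0.ne', Real.rpow_one]
      rw [h1]
      exact Real.rpow_le_rpow (by positivity) hcard (by positivity)
    have hP'2 : 2 ≤ P'.card := by
      by_contra hlt
      have h1 : P'.card ≤ 1 := by omega
      have h2 : (P'.card : ℝ) ≤ 1 := by exact_mod_cast h1
      have h3 : (P'.card : ℝ) ^ η ≤ 1 := Real.rpow_le_one hP'0.le h2 hη.le
      linarith
    have h1 := hmain P' ρ hP'2 hρ hP'sep (by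
      intro p hp q hq
      have h2 := (Finset.mem_filter.1 (hP'sub hp)).2
      have h3 := (Finset.mem_filter.1 (hP'sub hq)).2
      have h4 := dist_triangle_right p q x
      calc dist p q ≤ 4 * R := by linarith
        _ = ρ * (R / (2 * ρ) * 8) := by
            field_simp
            ring
        _ ≤ ρ * ((P'.card : ℝ) ^ ((1:ℝ) / d) * (P'.card : ℝ) ^ η) := by gcongr
        _ = _ := by rw [← Real.rpow_add hP'0])
    have h2 : ((dset P').card : ℝ) ≤ (dset P).card := by exact_mod_cast dset_mono hP'P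
    have h3 : (1 / 2) ^ ((2:ℝ) - ε₂) * (R / ρ) ^ ((2:ℝ) - ε₂) ≤
        (P'.card : ℝ) ^ ((2:ℝ) / d - ε₂ / d) := by
      rw [← Real.mul_rpow (by norm_num) (by positivity)]
      have e1 : (1:ℝ) / 2 * (R / ρ) = R / (2 * ρ) := by
        field_simp
      have e2 : (P'.card : ℝ) ^ ((2:ℝ) / d - ε₂ / d) =
          ((P'.card : ℝ) ^ ((1:ℝ) / d)) ^ ((2:ℝ) - ε₂) := by
        rw [← Real.rpow_mul hP'0.le]
        congr 1
        ring
      rw [e1, e2]
      exact Real.rpow_le_rpow (by positivity) hroot (by linarith)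
    calc min (1 / M) (c * (1 / 2) ^ ((2:ℝ) - ε₂)) * (R / ρ) ^ ((2:ℝ) - ε)
        ≤ (c * (1 / 2) ^ ((2:ℝ) - ε₂)) * (R / ρ) ^ ((2:ℝ) - ε₂) := by
          apply mul_le_mul (min_le_right _ _) hle (by positivity) (by positivity)
      _ = c * ((1 / 2) ^ ((2:ℝ) - ε₂) * (R / ρ) ^ ((2:ℝ) - ε₂)) := by ring
      _ ≤ c * (P'.card : ℝ) ^ ((2:ℝ) / d - ε₂ / d) := mul_le_mul_of_nonneg_left h3 hc.le
      _ ≤ _ := h1.trans h2
  · -- few points
    have h1 : R / ρ ≤ 2 * n₁ ^ ((1:ℝ) / d) := by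
      have h2 : R / (2 * ρ) = ((R / (2 * ρ)) ^ d) ^ ((1:ℝ) / d) := by
        rw [← Real.rpow_natCast, ← Real.rpow_mul (by positivity)]
        rw [mul_one_div_cancel hd0.ne', Real.rpow_one]
      have h3 : R / (2 * ρ) ≤ n₁ ^ ((1:ℝ) / d) := by
        rw [h2]
        exact Real.rpow_le_rpow (by positivity) (hcard.trans hn.le) (by positivity)
      have h4 : R / ρ = 2 * (R / (2 * ρ)) := by
        field_simp
      rw [h4]
      linarith
    have h2 : (R / ρ) ^ ((2:ℝ) - ε₂) ≤ M := by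
      calc (R / ρ) ^ ((2:ℝ) - ε₂) ≤ (R / ρ) ^ (2:ℝ) := by
            apply Real.rpow_le_rpow_of_exponent_le hRρ
            linarith
        _ ≤ M := Real.rpow_le_rpow (by positivity) h1 (by norm_num)
    calc min (1 / M) (c * (1 / 2) ^ ((2:ℝ) - ε₂)) * (R / ρ) ^ ((2:ℝ) - ε)
        ≤ (1 / M) * M := by
          apply mul_le_mul (min_le_left _ _) (hle.trans h2) (by positivity) (by positivity)
      _ = 1 := by field_simp
      _ ≤ _ := hone

/-- Falconer's theorem implies the distinct distances theorem for homogeneous sets -/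
theorem homog_main (hd : 2 ≤ d) (hF : Falc d) {ε K : ℝ} (hε : 0 < ε) (hK : 1 ≤ K) :
    ∃ c : ℝ, 0 < c ∧ ∀ P : Finset (Ed d), 2 ≤ P.card →
      (∀ p ∈ P, ∀ q ∈ P, dist p q ≤ K * (P.card : ℝ) ^ ((1:ℝ) / d)) →
      (∀ x : Ed d, ((inBall P x 1).card : ℝ) ≤ K) →
      c * (P.card : ℝ) ^ ((2:ℝ) / d - ε) ≤ (dset P).card := by
  classical
  have hd2 : (2:ℝ) ≤ d := by exact_mod_cast hd
  have hd0 : (0:ℝ) < d := by linarith
  have hK0 : 0 < K := by linarith
  have h1d : (1:ℝ) / d ≤ 1 := by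
    rw [div_le_one hd0]
    linarith
  have h2d : (2:ℝ) / d = 2 * (1 / d) := by ring
  have h1d0 : 0 < (1:ℝ) / d := by positivity
  set ε₂ : ℝ := min ε (1 / d) with hε₂
  have hε₂0 : 0 < ε₂ := lt_min hε (by positivity)
  have hε₂d : ε₂ ≤ 1 / d := min_le_right _ _
  obtain ⟨η, hη, c, hc, hmain⟩ := spread_main hd hF hε₂0
  set n₁ : ℝ := max 2 ((K ^ 2) ^ (1 / η)) with hn₁
  have hn₁2 : 2 ≤ n₁ := le_max_left _ _
  have hM0 : 0 < (K * n₁) ^ 2 := by positivity
  refine ⟨min (1 / (K * n₁) ^ 2) (c * (1 / K) ^ ((2:ℝ) / d - ε₂)),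
    lt_min (by positivity) (by positivity), fun P hP hdiam hball => ?_⟩
  have hn2 : (2:ℝ) ≤ P.card := by exact_mod_cast hP
  have hn0 : (0:ℝ) < P.card := by linarith
  have hn1 : (1:ℝ) ≤ P.card := by linarith
  have hle : (P.card : ℝ) ^ ((2:ℝ) / d - ε) ≤ (P.card : ℝ) ^ ((2:ℝ) / d - ε₂) := by
    apply Real.rpow_le_rpow_of_exponent_le hn1
    have := min_le_left ε (1 / d)
    linarith
  obtain ⟨P', hP'P, hP'sep, hP'near⟩ := exists_sep P one_pos
  have hcard : (P.card : ℝ) ≤ K * P'.card := by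
    have h1 : P ⊆ P'.biUnion fun p => inBall P p 1 := by
      intro y hy
      obtain ⟨p, hp, hyp⟩ := hP'near y hy
      exact Finset.mem_biUnion.2 ⟨p, hp, mem_inBall.2 ⟨hy, hyp⟩⟩
    calc (P.card : ℝ) ≤ ((P'.biUnion fun p => inBall P p 1).card : ℝ) := by
          exact_mod_cast Finset.card_le_card h1
      _ ≤ ((∑ p ∈ P', (inBall P p 1).card : ℕ) : ℝ) := by
          exact_mod_cast Finset.card_biUnion_le
      _ = ∑ p ∈ P', ((inBall P p 1).card : ℝ) := by push_cast; rfl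
      _ ≤ ∑ _p ∈ P', K := Finset.sum_le_sum fun p _ => hball p
      _ = K * P'.card := by rw [Finset.sum_const, nsmul_eq_mul, mul_comm]
  have hone : (1:ℝ) ≤ (dset P).card := by exact_mod_cast one_le_dset hP
  rcases le_or_gt n₁ (P'.card : ℝ) with hn | hn
  · have hP'0 : (0:ℝ) < P'.card := by linarith
    have hP'1 : (1:ℝ) ≤ P'.card := by linarith
    have hP'2 : 2 ≤ P'.card := by
      have : (2:ℝ) ≤ P'.card := by linarith
      exact_mod_cast this
    have hK2 : K ^ 2 ≤ (P'.card : ℝ) ^ η := by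
      calc K ^ 2 = ((K ^ 2) ^ (1 / η)) ^ η := by
            rw [← Real.rpow_mul (by positivity), one_div_mul_cancel hη.ne', Real.rpow_one]
        _ ≤ _ := Real.rpow_le_rpow (by positivity) ((le_max_right _ _).trans hn) hη.le
    have h1 := hmain P' 1 hP'2 one_pos hP'sep (by
      intro p hp q hq
      rw [one_mul]
      calc dist p q ≤ K * (P.card : ℝ) ^ ((1:ℝ) / d) := hdiam p (hP'P hp) q (hP'P hq)
        _ ≤ K * (K * P'.card) ^ ((1:ℝ) / d) := by gcongr
        _ = K * (K ^ ((1:ℝ) / d) * (P'.card : ℝ) ^ ((1:ℝ) / d)) := by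
            rw [Real.mul_rpow hK0.le hP'0.le]
        _ ≤ K * (K ^ (1:ℝ) * (P'.card : ℝ) ^ ((1:ℝ) / d)) := by
            gcongr
        _ = K ^ 2 * (P'.card : ℝ) ^ ((1:ℝ) / d) := by rw [Real.rpow_one]; ring
        _ ≤ (P'.card : ℝ) ^ η * (P'.card : ℝ) ^ ((1:ℝ) / d) := by gcongr
        _ = _ := by rw [← Real.rpow_add hP'0, add_comm])
    have h2 : ((dset P').card : ℝ) ≤ (dset P).card := by exact_mod_cast dset_mono hP'P
    have h3 : (1 / K) ^ ((2:ℝ) / d - ε₂) * (P.card : ℝ) ^ ((2:ℝ) / d - ε₂) ≤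
        (P'.card : ℝ) ^ ((2:ℝ) / d - ε₂) := by
      rw [← Real.mul_rpow (by positivity) hn0.le]
      apply Real.rpow_le_rpow (by positivity) _ (by linarith)
      rw [one_div, inv_mul_le_iff₀ hK0]
      exact hcard
    calc min (1 / (K * n₁) ^ 2) (c * (1 / K) ^ ((2:ℝ) / d - ε₂)) *
          (P.card : ℝ) ^ ((2:ℝ) / d - ε)
        ≤ (c * (1 / K) ^ ((2:ℝ) / d - ε₂)) * (P.card : ℝ) ^ ((2:ℝ) / d - ε₂) := by
          apply mul_le_mul (min_le_right _ _) hle (by positivity) (by positivity)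
      _ = c * ((1 / K) ^ ((2:ℝ) / d - ε₂) * (P.card : ℝ) ^ ((2:ℝ) / d - ε₂)) := by ring
      _ ≤ c * (P'.card : ℝ) ^ ((2:ℝ) / d - ε₂) := mul_le_mul_of_nonneg_left h3 hc.le
      _ ≤ _ := h1.trans h2
  · have h1 : (P.card : ℝ) ≤ K * n₁ := hcard.trans (mul_le_mul_of_nonneg_left hn.le hK0.le)
    have h2 : (P.card : ℝ) ^ ((2:ℝ) / d - ε₂) ≤ (K * n₁) ^ 2 := by
      calc (P.card : ℝ) ^ ((2:ℝ) / d - ε₂) ≤ (P.card : ℝ) ^ (2:ℝ) := by
            apply Real.rpow_le_rpow_of_exponent_le hn1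
            linarith
        _ = (P.card : ℝ) ^ 2 := Real.rpow_two _
        _ ≤ _ := pow_le_pow_left₀ hn0.le h1 2
    calc min (1 / (K * n₁) ^ 2) (c * (1 / K) ^ ((2:ℝ) / d - ε₂)) *
          (P.card : ℝ) ^ ((2:ℝ) / d - ε)
        ≤ (1 / (K * n₁) ^ 2) * (K * n₁) ^ 2 := by
          apply mul_le_mul (min_le_left _ _) (hle.trans h2) (by positivity) (by positivity)
      _ = 1 := by field_simp
      _ ≤ _ := hone

theorem ncard_dset (P : Finset (Ed d)) :
    {t : ℝ | ∃ p ∈ P, ∃ q ∈ P, p ≠ q ∧ dist p q = t}.ncard = (dset P).card := by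
  have h : {t : ℝ | ∃ p ∈ P, ∃ q ∈ P, p ≠ q ∧ dist p q = t} = (dset P : Set ℝ) := by
    ext t
    rw [Finset.mem_coe, mem_dset]
    exact Iff.rfl
  rw [h, Set.ncard_coe_finset]

theorem ncard_inBall (P : Finset (Ed d)) (x : Ed d) (u : ℝ) :
    {p : Ed d | p ∈ P ∧ dist p x ≤ u}.ncard = (inBall P x u).card := by
  have h : {p : Ed d | p ∈ P ∧ dist p x ≤ u} = (inBall P x u : Set (Ed d)) := by
    ext p
    rw [Finset.mem_coe, mem_inBall]
    exact Iff.rfl
  rw [h, Set.ncard_coe_finset]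

end Vale.Agent.P054.Spread
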