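import Vale.Agent.P054.Spread.Cantor

/-! Distinct distances of sets of nearly minimal spread: Frostman bound of the Cantor measure,
dimension of the Cantor set and measure of its distance set (helper352). -/

namespace Vale.Agent.P054.Spread

open Set Metric Finset MeasureTheory Filter
open scoped ENNReal NNReal Topology

variable {d : ℕ}

section Con

variable {s C : ℝ} {ρ : ℕ → ℝ} {a : ℕ → ℕ} {S : ∀ n, Stage d s C (a n) (ρ n / 2)}

theorem mu_ball (h0 : ∀ n, 0 < ρ n) (hρ : ∀ n, ρ (n + 1) = (S n).δ)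
    (ha : ∀ n, (2:ℝ)⁻¹ ^ (a n) ≤ ρ n) (j : ℕ) (x : Ed d) (u : ℝ) :
    mu S (closedBall x u) ≤ ENNReal.ofReal
      ((inBall (S j).P x (u + 2 * Real.sqrt d * ρ (j + 1))).card / (Dn S (j + 1) : ℝ)) := by
  classical
  set D : ℕ := Dn S (j + 1) with hD
  have hD0 : (0:ℝ) < D := by exact_mod_cast Dn_pos S (j + 1)
  set F : Finset ℕ := (Finset.range D).filter fun k =>
    dist (E S (j + 1) k) x ≤ u + 2 * Real.sqrt d * ρ (j + 1) with hF
  have hcard : F.card ≤ (inBall (S j).P x (u + 2 * Real.sqrt d * ρ (j + 1))).card := by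
    refine Finset.card_le_card_of_injOn (fun k => E S (j + 1) k) (fun k hk => ?_)
      (fun k hk l hl h => ?_)
    · rw [Finset.mem_coe, hF, Finset.mem_filter, Finset.mem_range] at hk
      exact mem_inBall.2 ⟨(E_mem S hk.1).1, hk.2⟩
    · rw [Finset.mem_coe, hF, Finset.mem_filter, Finset.mem_range] at hk hl
      exact E_inj hρ ha (j + 1) k l hk.1 hl.1 h
  unfold mu
  rw [Measure.map_apply (gl_measurable h0 hρ ha) isClosed_closedBall.measurableSet,
    Measure.restrict_apply ((gl_measurable h0 hρ ha) isClosed_closedBall.measurableSet)]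
  have hsub : gl S ⁻¹' closedBall x u ∩ Ico (0:ℝ) 1 ⊆
      ⋃ k ∈ F, Ico ((k:ℝ) / D) (((k:ℝ) + 1) / D) := by
    rintro t ⟨ht, ht0, ht1⟩
    have hfr : Int.fract t = t := Int.fract_eq_self.2 ⟨ht0, ht1⟩
    set k : ℕ := ⌊(D : ℝ) * t⌋₊ with hk
    have hgj : gj S (j + 1) t = E S (j + 1) k := by
      unfold gj
      rw [hfr]
    refine mem_iUnion₂.2 ⟨k, ?_, ?_, ?_⟩
    · rw [hF, Finset.mem_filter, Finset.mem_range]
      constructor
      · have := floor_lt S (j + 1) t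
        rw [hfr] at this
        exact this
      · rw [← hgj]
        have h1 := gl_dist h0 hρ ha (j + 1) t
        have h2 : dist (gl S t) x ≤ u := ht
        have h3 := dist_triangle_left (gj S (j + 1) t) x (gl S t)
        linarith
    · rw [div_le_iff₀ hD0, mul_comm]
      exact Nat.floor_le (by positivity)
    · rw [lt_div_iff₀ hD0, mul_comm]
      exact Nat.lt_floor_add_one _
  refine (measure_mono hsub).trans ?_
  refine (measure_biUnion_finset_le F _).trans ?_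
  have h1 : ∀ k ∈ F, volume (Ico ((k:ℝ) / D) (((k:ℝ) + 1) / D)) = ENNReal.ofReal (1 / D) := by
    intro k _
    rw [Real.volume_Ico]
    congr 1
    field_simp
    ring
  rw [Finset.sum_congr rfl h1, Finset.sum_const, nsmul_eq_mul, ← ENNReal.ofReal_natCast,
    ← ENNReal.ofReal_mul (by positivity)]
  apply ENNReal.ofReal_le_ofReal
  have h2 : (F.card : ℝ) ≤ (inBall (S j).P x (u + 2 * Real.sqrt d * ρ (j + 1))).card := by
    exact_mod_cast hcard
  rw [mul_one_div]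
  gcongr

theorem one_le_Dn (h1 : ρ 0 = 1) (hρ : ∀ n, ρ (n + 1) = (S n).δ) (j : ℕ) :
    1 ≤ (Dn S j : ℝ) * ρ j ^ s := by
  rcases j with _ | j
  · rw [Dn_zero, h1]
    simp
  · rw [Dn_succ, hρ]
    have h2 : (1:ℝ) ≤ Dn S j := by exact_mod_cast Dn_pos S j
    have h3 := (S j).NS
    push_cast
    calc (1:ℝ) ≤ 1 * (((S j).N : ℝ) * (S j).δ ^ s) := by linarith
      _ ≤ (Dn S j : ℝ) * (((S j).N : ℝ) * (S j).δ ^ s) := by
          apply mul_le_mul_of_nonneg_right h2 (by linarith)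
      _ = _ := by ring

theorem sqrt_le_add (d : ℕ) : Real.sqrt d ≤ (d:ℝ) + 1 := by
  have h0 : (0:ℝ) ≤ d := Nat.cast_nonneg d
  refine Real.sqrt_le_iff.2 ⟨by linarith, by nlinarith⟩

/-- the Frostman bound on balls between two consecutive scales -/
theorem frost1 (hs : 0 < s) (hC : 0 ≤ C) (h1 : ρ 0 = 1) (h0 : ∀ n, 0 < ρ n)
    (hρ : ∀ n, ρ (n + 1) = (S n).δ)
    (ha : ∀ n, (2:ℝ)⁻¹ ^ (a n) ≤ ρ n ∧ ρ n ≤ 2 * (2:ℝ)⁻¹ ^ (a n)) (j : ℕ) (x : Ed d) {u : ℝ}
    (hu : ρ (j + 1) ≤ u) (hu' : u ≤ ρ j) :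
    mu S (closedBall x u) ≤ ENNReal.ofReal (C * (1 + (6 * ((d:ℝ) + 1)) ^ s) * u ^ s) := by
  refine (mu_ball h0 hρ (fun n => (ha n).1) j x u).trans ?_
  apply ENNReal.ofReal_le_ofReal
  have hu0 : 0 < u := (h0 (j + 1)).trans_le hu
  have hd0 : (0:ℝ) ≤ d := Nat.cast_nonneg d
  have hsq := sqrt_le_add d
  have hsq0 := Real.sqrt_nonneg (d:ℝ)
  set u₁ : ℝ := u + 2 * Real.sqrt d * ρ (j + 1) with hu₁
  have hu₁pos : 0 < u₁ := by
    have := (h0 (j + 1)).le
    positivity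
  have hA : u₁ ≤ (1 + 2 * Real.sqrt d) * u := by
    rw [hu₁]
    nlinarith [mul_le_mul_of_nonneg_left hu (by positivity : 0 ≤ 2 * Real.sqrt d)]
  have hB : u₁ ≤ 3 * ((d:ℝ) + 1) * u := by
    refine hA.trans (mul_le_mul_of_nonneg_right ?_ hu0.le)
    linarith
  have hup := (S j).upper x u₁ (by
      rw [← hρ j, hu₁]
      have := mul_nonneg (mul_nonneg (by norm_num : (0:ℝ) ≤ 2) hsq0) (h0 (j + 1)).le
      linarith) (by
      have h2 := (ha j).2
      calc u₁ ≤ 3 * ((d:ℝ) + 1) * u := hB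
        _ ≤ 3 * ((d:ℝ) + 1) * (2 * (2:ℝ)⁻¹ ^ (a j)) := by
            apply mul_le_mul_of_nonneg_left (hu'.trans h2) (by positivity)
        _ = _ := by ring)
  have hD0 : (0:ℝ) < Dn S j := by exact_mod_cast Dn_pos S j
  have hN0 : (0:ℝ) < (S j).N := by
    have := (S j).Npos
    positivity
  have hDj := one_le_Dn h1 hρ j
  have hDj1 := one_le_Dn h1 hρ (j + 1)
  have e1 : (Dn S (j + 1) : ℝ) = Dn S j * (S j).N := by
    rw [Dn_succ]
    push_cast
    rfl
  have hD1 : (0:ℝ) < Dn S (j + 1) := by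
    rw [e1]
    positivity
  calc ((inBall (S j).P x u₁).card : ℝ) / (Dn S (j + 1) : ℝ)
      ≤ C * (1 + (S j).N * ((2:ℝ) ^ (a j) * u₁) ^ s) / (Dn S (j + 1) : ℝ) := by gcongr
    _ = C * (1 / (Dn S (j + 1) : ℝ) + ((2:ℝ) ^ (a j) * u₁) ^ s / Dn S j) := by
        rw [e1]
        field_simp
    _ ≤ C * (u ^ s + (6 * ((d:ℝ) + 1)) ^ s * u ^ s) := by
        apply mul_le_mul_of_nonneg_left _ hC
        apply add_le_add
        · rw [div_le_iff₀ hD1]
          calc (1:ℝ) ≤ (Dn S (j + 1) : ℝ) * ρ (j + 1) ^ s := hDj1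
            _ ≤ (Dn S (j + 1) : ℝ) * u ^ s := by
                apply mul_le_mul_of_nonneg_left _ hD1.le
                exact Real.rpow_le_rpow (h0 _).le hu hs.le
            _ = u ^ s * (Dn S (j + 1) : ℝ) := mul_comm _ _
        · rw [div_le_iff₀ hD0]
          have h5 : (2:ℝ) ^ (a j) * ρ j ≤ 2 := by
            have h6 := (ha j).2
            have h7 : (0:ℝ) < (2:ℝ) ^ (a j) := by positivity
            calc (2:ℝ) ^ (a j) * ρ j ≤ (2:ℝ) ^ (a j) * (2 * (2:ℝ)⁻¹ ^ (a j)) :=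
                  mul_le_mul_of_nonneg_left h6 h7.le
              _ = 2 * ((2:ℝ) * 2⁻¹) ^ (a j) := by
                  rw [mul_pow]
                  ring
              _ = 2 := by norm_num
          have h8 : ((2:ℝ) ^ (a j) * u₁) ^ s * ρ j ^ s ≤ (6 * ((d:ℝ) + 1)) ^ s * u ^ s := by
            rw [← Real.mul_rpow (by positivity) (h0 j).le,
              ← Real.mul_rpow (by positivity) hu0.le]
            apply Real.rpow_le_rpow (by have := h0 j; positivity) _ hs.le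
            calc (2:ℝ) ^ (a j) * u₁ * ρ j = ((2:ℝ) ^ (a j) * ρ j) * u₁ := by ring
              _ ≤ 2 * u₁ := mul_le_mul_of_nonneg_right h5 hu₁pos.le
              _ ≤ 2 * (3 * ((d:ℝ) + 1) * u) := by linarith
              _ = 6 * ((d:ℝ) + 1) * u := by ring
          have h9 : 0 ≤ ((2:ℝ) ^ (a j) * u₁) ^ s := by positivity
          calc ((2:ℝ) ^ (a j) * u₁) ^ s = ((2:ℝ) ^ (a j) * u₁) ^ s * 1 := by ring
            _ ≤ ((2:ℝ) ^ (a j) * u₁) ^ s * (Dn S j * ρ j ^ s) :=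
                mul_le_mul_of_nonneg_left hDj h9
            _ = (((2:ℝ) ^ (a j) * u₁) ^ s * ρ j ^ s) * Dn S j := by ring
            _ ≤ _ := mul_le_mul_of_nonneg_right h8 hD0.le
    _ = _ := by ring

/-- the Frostman bound on all small balls -/
theorem frost2 (hs : 0 < s) (hC : 0 ≤ C) (h1 : ρ 0 = 1) (h0 : ∀ n, 0 < ρ n)
    (hρ : ∀ n, ρ (n + 1) = (S n).δ)
    (ha : ∀ n, (2:ℝ)⁻¹ ^ (a n) ≤ ρ n ∧ ρ n ≤ 2 * (2:ℝ)⁻¹ ^ (a n)) (x : Ed d) {u : ℝ}
    (hu : 0 < u) (hu' : u ≤ 1) :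
    mu S (closedBall x u) ≤ ENNReal.ofReal (C * (1 + (6 * ((d:ℝ) + 1)) ^ s) * u ^ s) := by
  classical
  have hex : ∃ j, ρ (j + 1) ≤ u := by
    have h2 : ∀ᶠ n in atTop, ρ n < u := (rho_tendsto h0 hρ).eventually_lt_const hu
    obtain ⟨n, hn⟩ := eventually_atTop.1 h2
    exact ⟨n, (hn (n + 1) (by omega)).le⟩
  refine frost1 hs hC h1 h0 hρ ha (Nat.find hex) x (Nat.find_spec hex) ?_
  rcases Nat.eq_zero_or_pos (Nat.find hex) with h | h
  · rw [h, h1]
    exact hu'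
  · have h3 := Nat.find_min hex (m := Nat.find hex - 1) (by omega)
    rw [Nat.sub_add_cancel h] at h3
    exact (not_le.1 h3).le

/-- the mass distribution bound -/
theorem frost3 (hs : 0 < s) (hC : 0 ≤ C) (h1 : ρ 0 = 1) (h0 : ∀ n, 0 < ρ n)
    (hρ : ∀ n, ρ (n + 1) = (S n).δ)
    (ha : ∀ n, (2:ℝ)⁻¹ ^ (a n) ≤ ρ n ∧ ρ n ≤ 2 * (2:ℝ)⁻¹ ^ (a n)) (t : Set (Ed d))
    (ht : ediam t ≤ 1) :
    mu S t ≤ ENNReal.ofReal (C * (1 + (6 * ((d:ℝ) + 1)) ^ s)) * ediam t ^ s := by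
  set K : ℝ := C * (1 + (6 * ((d:ℝ) + 1)) ^ s) with hK
  have hK0 : 0 ≤ K := by positivity
  rcases t.eq_empty_or_nonempty with rfl | ⟨x, hx⟩
  · simp
  have key : ∀ v : ℝ, 0 < v → v ≤ 1 → ediam t ≤ ENNReal.ofReal v →
      mu S t ≤ ENNReal.ofReal K * ENNReal.ofReal (v ^ s) := by
    intro v hv hv1 htv
    rw [← ENNReal.ofReal_mul hK0]
    refine le_trans (measure_mono fun y hy => ?_) (frost2 hs hC h1 h0 hρ ha x hv hv1)
    rw [mem_closedBall, ← edist_le_ofReal hv.le]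
    exact (edist_le_ediam_of_mem hy hx).trans htv
  rcases eq_or_ne (ediam t) 0 with h | h
  · rw [h, ENNReal.zero_rpow_of_pos hs, mul_zero]
    have h2 : Tendsto (fun v : ℝ => ENNReal.ofReal K * ENNReal.ofReal (v ^ s)) (𝓝[>] 0)
        (𝓝 (ENNReal.ofReal K * ENNReal.ofReal ((0:ℝ) ^ s))) := by
      refine ENNReal.Tendsto.const_mul ?_ (Or.inr ENNReal.ofReal_ne_top)
      refine (ENNReal.continuous_ofReal.tendsto _).comp ?_
      have h3 : ContinuousAt (fun v : ℝ => v ^ s) 0 :=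
        Real.continuousAt_rpow_const _ _ (Or.inr hs.le)
      exact h3.tendsto.mono_left nhdsWithin_le_nhds
    rw [Real.zero_rpow hs.ne', ENNReal.ofReal_zero, mul_zero] at h2
    refine ge_of_tendsto h2 ?_
    filter_upwards [Ioo_mem_nhdsGT (zero_lt_one : (0:ℝ) < 1)] with v hv
    exact key v hv.1 hv.2.le (by rw [h]; exact zero_le)
  · have hfin : ediam t ≠ ⊤ := ne_top_of_le_ne_top ENNReal.one_ne_top ht
    have h2 := key (ediam t).toReal (ENNReal.toReal_pos h hfin)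
      (by simpa using ENNReal.toReal_mono ENNReal.one_ne_top ht)
      (by rw [ENNReal.ofReal_toReal hfin])
    rwa [← ENNReal.ofReal_rpow_of_pos (ENNReal.toReal_pos h hfin),
      ENNReal.ofReal_toReal hfin] at h2

theorem dim_KK (hs : 0 < s) (hC : 0 < C) (h1 : ρ 0 = 1) (h0 : ∀ n, 0 < ρ n)
    (hρ : ∀ n, ρ (n + 1) = (S n).δ)
    (ha : ∀ n, (2:ℝ)⁻¹ ^ (a n) ≤ ρ n ∧ ρ n ≤ 2 * (2:ℝ)⁻¹ ^ (a n)) :
    ENNReal.ofReal s ≤ dimH (KK ρ S) := by
  set K : ℝ := C * (1 + (6 * ((d:ℝ) + 1)) ^ s) with hK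
  have hK0 : 0 < K := by positivity
  have hK1 : ENNReal.ofReal K ≠ 0 := by simpa using hK0
  have h2 : ((ENNReal.ofReal K)⁻¹ • mu S) ≤ Measure.hausdorffMeasure s := by
    refine Measure.le_hausdorffMeasure s _ 1 one_pos fun t ht => ?_
    rw [Measure.smul_apply, smul_eq_mul]
    have h3 := frost3 hs hC.le h1 h0 hρ ha t ht
    calc (ENNReal.ofReal K)⁻¹ * mu S t ≤ (ENNReal.ofReal K)⁻¹ * (ENNReal.ofReal K * ediam t ^ s) :=
          mul_le_mul_right h3 _
      _ = ediam t ^ s := by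
          rw [← mul_assoc, ENNReal.inv_mul_cancel hK1 ENNReal.ofReal_ne_top, one_mul]
  have h3 : Measure.hausdorffMeasure s (KK ρ S) ≠ 0 := by
    have h4 := h2 (KK ρ S)
    rw [Measure.smul_apply, smul_eq_mul, mu_KK h0 hρ (fun n => (ha n).1), mul_one] at h4
    intro h5
    rw [h5] at h4
    have h6 : (ENNReal.ofReal K)⁻¹ = 0 := le_antisymm h4 (zero_le)
    exact ENNReal.ofReal_ne_top (ENNReal.inv_eq_zero.1 h6)
  have h4 : ((s.toNNReal : ℝ≥0) : ℝ≥0∞) ≤ dimH (KK ρ S) := by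
    apply le_dimH_of_hausdorffMeasure_ne_zero
    rwa [Real.coe_toNNReal s hs.le]
  exact h4

theorem dist_KK (h0 : ∀ n, 0 < ρ n) (hρ : ∀ n, ρ (n + 1) = (S n).δ) :
    volume {r : ℝ | ∃ x ∈ KK ρ S, ∃ y ∈ KK ρ S, r = dist x y} = 0 := by
  classical
  have key : ∀ j, volume {r : ℝ | ∃ x ∈ KK ρ S, ∃ y ∈ KK ρ S, r = dist x y} ≤
      ENNReal.ofReal (8 * Real.sqrt d * ρ j) := by
    intro j
    have hsub : {r : ℝ | ∃ x ∈ KK ρ S, ∃ y ∈ KK ρ S, r = dist x y} ⊆
        ⋃ t ∈ insert 0 (dset (S j).P), closedBall t (4 * Real.sqrt d * ρ (j + 1)) := by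
      rintro r ⟨x, hx, y, hy, rfl⟩
      obtain ⟨p, hp, hxp⟩ := mem_iUnion₂.1 (mem_iInter.1 hx j)
      obtain ⟨q, hq, hyq⟩ := mem_iUnion₂.1 (mem_iInter.1 hy j)
      rw [mem_closedBall] at hxp hyq
      have h1 : |dist x y - dist p q| ≤ dist x p + dist y q := by
        rw [← Real.dist_eq]
        exact dist_dist_dist_le _ _ _ _
      refine mem_iUnion₂.2 ⟨dist p q, ?_, ?_⟩
      · by_cases hpq : p = q
        · rw [hpq, dist_self]
          exact Finset.mem_insert_self _ _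
        · exact Finset.mem_insert_of_mem (mem_dset.2 ⟨p, hp, q, hq, hpq, rfl⟩)
      · rw [mem_closedBall, Real.dist_eq]
        linarith
    refine (measure_mono hsub).trans ((measure_biUnion_finset_le _ _).trans ?_)
    have hv : ∀ t ∈ insert (0:ℝ) (dset (S j).P),
        volume (closedBall t (4 * Real.sqrt d * ρ (j + 1))) =
          ENNReal.ofReal (2 * (4 * Real.sqrt d * ρ (j + 1))) := by
      intro t _
      rw [Real.volume_closedBall]
    rw [Finset.sum_congr rfl hv, Finset.sum_const, nsmul_eq_mul, ← ENNReal.ofReal_natCast,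
      ← ENNReal.ofReal_mul (by positivity)]
    apply ENNReal.ofReal_le_ofReal
    have h2 : ((insert (0:ℝ) (dset (S j).P)).card : ℝ) ≤ (dset (S j).P).card + 1 := by
      exact_mod_cast Finset.card_insert_le _ _
    have h3 := (S j).few
    have h4 := (S j).δle
    have h5 : 0 < ρ (j + 1) := h0 _
    have hsq := Real.sqrt_nonneg (d:ℝ)
    rw [hρ j] at h5 ⊢
    calc ((insert (0:ℝ) (dset (S j).P)).card : ℝ) * (2 * (4 * Real.sqrt d * (S j).δ))
        ≤ ((dset (S j).P).card + 1) * (2 * (4 * Real.sqrt d * (S j).δ)) := by gcongr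
      _ = 8 * Real.sqrt d * (((dset (S j).P).card : ℝ) * (S j).δ + (S j).δ) := by ring
      _ ≤ 8 * Real.sqrt d * (ρ j / 2 + ρ j / 2) := by gcongr
      _ = _ := by ring
  have h2 : Tendsto (fun j => ENNReal.ofReal (8 * Real.sqrt d * ρ j)) atTop (𝓝 0) := by
    have h3 : Tendsto (fun j => 8 * Real.sqrt d * ρ j) atTop (𝓝 (8 * Real.sqrt d * 0)) :=
      (rho_tendsto h0 hρ).const_mul _
    rw [mul_zero] at h3
    have h4 := (ENNReal.continuous_ofReal.tendsto 0).comp h3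
    rw [ENNReal.ofReal_zero] at h4
    exact h4
  exact le_antisymm (ge_of_tendsto' h2 key) (zero_le)

end Con

/-- Falconer's theorem in dimension `d` -/
def Falc (d : ℕ) : Prop := ∀ E : Set (Ed d), IsCompact E → (d : ℝ≥0∞) / 2 < dimH E →
  0 < volume {r : ℝ | ∃ x ∈ E, ∃ y ∈ E, r = dist x y}

/-- **the transfer**: Falconer's theorem excludes stages at all generations -/
theorem cantor_false (hF : Falc d) {s C : ℝ} (hs : (d:ℝ) / 2 < s) (hC : 0 < C)
    (St : ∀ (a : ℕ) (θ : ℝ), 0 < θ → Nonempty (Stage d s C a θ)) : False := by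
  have hs0 : 0 < s := lt_of_le_of_lt (by positivity) hs
  obtain ⟨ρ, a, S, h1, h0, hρ, ha⟩ := exists_seq St
  have hd := dim_KK hs0 hC h1 h0 hρ ha
  have hlt : (d : ℝ≥0∞) / 2 < dimH (KK ρ S) := by
    refine lt_of_lt_of_le ?_ hd
    have e : (d : ℝ≥0∞) / 2 = ENNReal.ofReal ((d:ℝ) / 2) := by
      rw [ENNReal.ofReal_div_of_pos (by norm_num), ENNReal.ofReal_natCast, ENNReal.ofReal_ofNat]
    rw [e]
    exact (ENNReal.ofReal_lt_ofReal_iff hs0).2 hs
  have h2 := hF _ (KK_compact S) hlt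
  rw [dist_KK h0 hρ] at h2
  exact lt_irrefl _ h2

end Vale.Agent.P054.Spread
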