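import Vale.Agent.P054.Spread.Stage
import Mathlib.Analysis.SpecialFunctions.Log.Base

/-! Distinct distances of sets of nearly minimal spread: bad sets give stages at all generations
(helper352). -/

namespace Vale.Agent.P054.Spread

open Set Metric Finset Filter
open scoped Topology

variable {d : ℕ}

/-- a set with few distances and nearly minimal spread -/
def Bad (d : ℕ) (ε η c : ℝ) : Prop :=
  ∃ (P : Finset (Ed d)) (r R : ℝ), 2 ≤ P.card ∧ 0 < r ∧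
    (∀ p ∈ P, ∀ q ∈ P, p ≠ q → r ≤ dist p q) ∧ (∀ p ∈ P, ∀ q ∈ P, dist p q ≤ R) ∧
    R ≤ r * (P.card : ℝ) ^ ((1:ℝ) / d + η) ∧
    ((dset P).card : ℝ) < c * (P.card : ℝ) ^ ((2:ℝ) / d - ε)

theorem one_le_dset {P : Finset (Ed d)} (hP : 2 ≤ P.card) : 1 ≤ (dset P).card := by
  obtain ⟨p, hp, q, hq, hne⟩ := Finset.one_lt_card.1 (by omega : 1 < P.card)
  exact Finset.card_pos.2 ⟨dist p q, mem_dset.2 ⟨p, hp, q, hq, hne, rfl⟩⟩

theorem large_pow {p K : ℝ} (hp : 0 < p) : ∀ᶠ x : ℝ in atTop, K ≤ x ^ p :=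
  (tendsto_rpow_atTop hp).eventually_ge_atTop K

theorem small_pow {p θ : ℝ} (hp : 0 < p) (hθ : 0 < θ) : ∀ᶠ x : ℝ in atTop, x ^ (-p) ≤ θ :=
  ((tendsto_rpow_neg_atTop hp).eventually_lt_const hθ).mono fun _ h => h.le


theorem choose_kappa {s : ℝ} (hsd : s < d) (a : ℕ) : ∃ κ : ℝ, 0 < κ ∧ κ ≤ d - s ∧
    (2:ℝ) ^ ((a:ℝ) * κ) ≤ 1 + (2:ℝ)⁻¹ ^ (a * d + 1) := by
  set L : ℝ := Real.logb 2 (1 + (2:ℝ)⁻¹ ^ (a * d + 1)) with hL
  have hL0 : 0 < L := Real.logb_pos (by norm_num) (by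
    have : (0:ℝ) < (2:ℝ)⁻¹ ^ (a * d + 1) := by positivity
    linarith)
  have ha0 : (0:ℝ) ≤ a := Nat.cast_nonneg a
  refine ⟨min (d - s) (L / (a + 1)), lt_min (by linarith) (by positivity), min_le_left _ _, ?_⟩
  set κ : ℝ := min (d - s) (L / (a + 1)) with hκ
  have hκ0 : 0 < κ := lt_min (by linarith) (by positivity)
  have h2 : (a:ℝ) * κ ≤ L := by
    have h3 := min_le_right (d - s) (L / (a + 1))
    have h4 : κ * (a + 1) ≤ L := by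
      rw [← le_div_iff₀ (by positivity)]
      exact h3
    nlinarith
  calc (2:ℝ) ^ ((a:ℝ) * κ) ≤ (2:ℝ) ^ L := Real.rpow_le_rpow_of_exponent_le (by norm_num) h2
    _ = _ := by
        rw [hL, Real.rpow_logb (by norm_num) (by norm_num) (by positivity)]

theorem g_bound1 (hd : 1 ≤ d) {n n' B η κ : ℝ} {g G : ℕ} (hn : 0 < n)
    (hn' : n ≤ n' * (2:ℝ) ^ ((g:ℝ) * (d - κ))) (hn'le : n' ≤ (2:ℝ) ^ (((G:ℝ) - g) * d))
    (hB : B = n ^ ((1:ℝ) / d + η)) (hG2 : (2:ℝ) ^ G ≤ 8 * ((d:ℝ) + 1) * B) :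
    (2:ℝ) ^ ((g:ℝ) * κ) ≤ (8 * ((d:ℝ) + 1)) ^ d * n ^ (d * η) := by
  have hd0 : (0:ℝ) < d := by
    have : (1:ℝ) ≤ d := by exact_mod_cast hd
    linarith
  have h1 : n * (2:ℝ) ^ ((g:ℝ) * κ) ≤ (2:ℝ) ^ ((G:ℝ) * d) := by
    calc n * (2:ℝ) ^ ((g:ℝ) * κ)
        ≤ (n' * (2:ℝ) ^ ((g:ℝ) * (d - κ))) * (2:ℝ) ^ ((g:ℝ) * κ) := by gcongr
      _ ≤ ((2:ℝ) ^ (((G:ℝ) - g) * d) * (2:ℝ) ^ ((g:ℝ) * (d - κ))) * (2:ℝ) ^ ((g:ℝ) * κ) := by
          gcongr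
      _ = _ := by
          rw [← Real.rpow_add (by norm_num), ← Real.rpow_add (by norm_num)]
          congr 1
          ring
  have h2 : (2:ℝ) ^ ((G:ℝ) * d) ≤ (8 * ((d:ℝ) + 1)) ^ d * (n * n ^ (d * η)) := by
    calc (2:ℝ) ^ ((G:ℝ) * d) = ((2:ℝ) ^ G) ^ d := by
          rw [Real.rpow_mul (by norm_num), Real.rpow_natCast, Real.rpow_natCast]
      _ ≤ (8 * ((d:ℝ) + 1) * B) ^ d := pow_le_pow_left₀ (by positivity) hG2 d
      _ = (8 * ((d:ℝ) + 1)) ^ d * B ^ d := by rw [mul_pow]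
      _ = _ := by
          congr 1
          rw [hB, ← Real.rpow_natCast (n ^ ((1:ℝ) / d + η)) d, ← Real.rpow_mul hn.le]
          have : ((1:ℝ) / d + η) * d = 1 + d * η := by field_simp
          rw [this, Real.rpow_add hn, Real.rpow_one]
  have h3 : n * (2:ℝ) ^ ((g:ℝ) * κ) ≤ n * ((8 * ((d:ℝ) + 1)) ^ d * n ^ (d * η)) := by
    calc _ ≤ _ := h1.trans h2
      _ = _ := by ring
  exact le_of_mul_le_mul_left h3 hn

theorem g_bound2 {n η κ lam C₁ : ℝ} {g : ℕ} (hn : 1 ≤ n) (hκ0 : 0 < κ) (hC₁ : 0 < C₁)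
    (hη : d * η / κ ≤ lam) (h : (2:ℝ) ^ ((g:ℝ) * κ) ≤ C₁ * n ^ (d * η)) :
    (2:ℝ) ^ g ≤ C₁ ^ (1 / κ) * n ^ lam := by
  have hn0 : 0 < n := by linarith
  have h1 : (2:ℝ) ^ g = ((2:ℝ) ^ ((g:ℝ) * κ)) ^ (1 / κ) := by
    rw [← Real.rpow_mul (by norm_num), ← Real.rpow_natCast]
    congr 1
    field_simp
  rw [h1]
  calc ((2:ℝ) ^ ((g:ℝ) * κ)) ^ (1 / κ) ≤ (C₁ * n ^ (d * η)) ^ (1 / κ) :=
        Real.rpow_le_rpow (by positivity) h (by positivity)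
    _ = C₁ ^ (1 / κ) * n ^ (d * η / κ) := by
        rw [Real.mul_rpow hC₁.le (by positivity), ← Real.rpow_mul hn0.le]
        congr 2
        ring
    _ ≤ C₁ ^ (1 / κ) * n ^ lam := by
        apply mul_le_mul_of_nonneg_left _ (by positivity)
        exact Real.rpow_le_rpow_of_exponent_le hn hη

theorem g_bound3 (hd : 1 ≤ d) {n B lam C₁ κ : ℝ} {g a G : ℕ} (hn : 1 ≤ n)
    (hlam : lam ≤ 1 / (2 * d)) (hB : n ^ ((1:ℝ) / d) ≤ B)
    (hE4 : C₁ ^ (1 / κ) * 2 ^ a ≤ n ^ (1 / (2 * (d:ℝ))))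
    (hg : (2:ℝ) ^ g ≤ C₁ ^ (1 / κ) * n ^ lam) (hG1 : 4 * ((d:ℝ) + 1) * B < (2:ℝ) ^ G) :
    g + a < G := by
  have hn0 : 0 < n := by linarith
  have hd0 : (0:ℝ) < d := by
    have : (1:ℝ) ≤ d := by exact_mod_cast hd
    linarith
  have hB0 : 0 < B := lt_of_lt_of_le (by positivity) hB
  have h1 : (2:ℝ) ^ (g + a) < 2 ^ G := by
    calc (2:ℝ) ^ (g + a) = (2:ℝ) ^ g * 2 ^ a := pow_add _ _ _
      _ ≤ (C₁ ^ (1 / κ) * n ^ lam) * 2 ^ a := by gcongr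
      _ = (C₁ ^ (1 / κ) * 2 ^ a) * n ^ lam := by ring
      _ ≤ n ^ (1 / (2 * (d:ℝ))) * n ^ (1 / (2 * (d:ℝ))) := by
          apply mul_le_mul hE4 _ (by positivity) (by positivity)
          exact Real.rpow_le_rpow_of_exponent_le hn hlam
      _ = n ^ ((1:ℝ) / d) := by
          rw [← Real.rpow_add hn0]
          congr 1
          field_simp
          norm_num
      _ ≤ B := hB
      _ ≤ 4 * ((d:ℝ) + 1) * B := by nlinarith
      _ < 2 ^ G := hG1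
  exact (pow_lt_pow_iff_right₀ (by norm_num : (1:ℝ) < 2)).1 h1

theorem nn_bound {n n' κ lam C₁ b s₂ : ℝ} {g : ℕ} (hn : 1 ≤ n) (hn'0 : 0 < n') (hC₁ : 0 < C₁)
    (hs₂d : s₂ ≤ d) (hlam : d * lam ≤ b) (hn' : n ≤ n' * (2:ℝ) ^ ((g:ℝ) * s₂))
    (hg : (2:ℝ) ^ g ≤ C₁ ^ (1 / κ) * n ^ lam) :
    n ≤ n' * (C₁ ^ ((d:ℝ) / κ) * n ^ b) := by
  have hn0 : 0 < n := by linarith
  have hg0 : (0:ℝ) ≤ g := Nat.cast_nonneg g
  calc n ≤ n' * (2:ℝ) ^ ((g:ℝ) * s₂) := hn'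
    _ ≤ n' * ((2:ℝ) ^ g) ^ d := by
        apply mul_le_mul_of_nonneg_left _ hn'0.le
        rw [← pow_mul, ← Real.rpow_natCast]
        apply Real.rpow_le_rpow_of_exponent_le (by norm_num)
        push_cast
        exact mul_le_mul_of_nonneg_left hs₂d hg0
    _ ≤ n' * (C₁ ^ (1 / κ) * n ^ lam) ^ d := by gcongr
    _ = n' * (C₁ ^ ((d:ℝ) / κ) * n ^ (d * lam)) := by
        congr 1
        rw [mul_pow, ← Real.rpow_natCast (C₁ ^ (1 / κ)) d, ← Real.rpow_mul hC₁.le,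
          ← Real.rpow_natCast (n ^ lam) d, ← Real.rpow_mul hn0.le]
        congr 2
        · ring
        · ring
    _ ≤ _ := by
        apply mul_le_mul_of_nonneg_left _ hn'0.le
        apply mul_le_mul_of_nonneg_left _ (by positivity)
        exact Real.rpow_le_rpow_of_exponent_le hn hlam

theorem big_bound {n n' A β T y : ℝ} (hn : 0 < n) (hA : 0 < A)
    (hnn' : n ≤ n' * (A * n ^ (β / 2))) (hy : y = n ^ (β - 1)) (hT : A * T ≤ n ^ (β / 2)) :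
    T ≤ n' * y := by
  have hX : 0 < n ^ (β / 2) := by positivity
  have hy0 : 0 < y := by rw [hy]; positivity
  have h1 : n ^ (β / 2) * n ^ (β / 2) ≤ n' * (A * n ^ (β / 2)) * y := by
    calc n ^ (β / 2) * n ^ (β / 2) = n * n ^ (β - 1) := by
          rw [← Real.rpow_add hn]
          nth_rewrite 2 [← Real.rpow_one n]
          rw [← Real.rpow_add hn]
          congr 1
          ring
      _ = n * y := by rw [hy]
      _ ≤ _ := mul_le_mul_of_nonneg_right hnn' hy0.le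
  have h2 : (A * n ^ (β / 2)) * T ≤ (A * n ^ (β / 2)) * (n' * y) := by
    calc (A * n ^ (β / 2)) * T = n ^ (β / 2) * (A * T) := by ring
      _ ≤ n ^ (β / 2) * n ^ (β / 2) := mul_le_mul_of_nonneg_left hT hX.le
      _ ≤ _ := h1
      _ = _ := by ring
  exact le_of_mul_le_mul_left h2 (by positivity)

theorem sep_bound (hd : 1 ≤ d) {n B δ e : ℝ} (hn : 1 ≤ n) (hB0 : 0 < B) (hδ0 : 0 < δ)
    (hBδ : B * δ ≤ n ^ (-e)) (hE3 : 4 * ((d:ℝ) + 1) ≤ n ^ e) :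
    Real.sqrt d * δ < 1 / (4 * B) := by
  have hn0 : 0 < n := by linarith
  have hd0 : (1:ℝ) ≤ d := by exact_mod_cast hd
  rw [lt_div_iff₀ (by positivity)]
  have h5 : n ^ (-e) * (4 * ((d:ℝ) + 1)) ≤ 1 := by
    rw [Real.rpow_neg hn0.le, ← div_eq_inv_mul, div_le_one (by positivity)]
    exact hE3
  have h7 : Real.sqrt d < d + 1 := by
    refine (Real.sqrt_lt' (by linarith)).2 ?_
    nlinarith
  have h8 : 0 < B * δ := by positivity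
  calc Real.sqrt d * δ * (4 * B) = (B * δ) * (4 * Real.sqrt d) := by ring
    _ < (B * δ) * (4 * ((d:ℝ) + 1)) := by
        apply mul_lt_mul_of_pos_left _ h8
        linarith
    _ ≤ n ^ (-e) * (4 * ((d:ℝ) + 1)) := mul_le_mul_of_nonneg_right hBδ (by positivity)
    _ ≤ 1 := h5

theorem card_large {P : Finset (Ed d)} {ε x₁ : ℝ} (hd : 1 ≤ d) (hε : 0 < ε) (hx₁ : 1 ≤ x₁)
    (hP2 : 2 ≤ P.card)
    (hfew : ((dset P).card : ℝ) < (x₁ ^ 2)⁻¹ * (P.card : ℝ) ^ ((2:ℝ) / d - ε)) :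
    x₁ ≤ P.card := by
  by_contra hlt
  push Not at hlt
  have hd0 : (1:ℝ) ≤ d := by exact_mod_cast hd
  have hn1 : (1:ℝ) ≤ P.card := by
    have : (2:ℝ) ≤ P.card := by exact_mod_cast hP2
    linarith
  have h1 : (1:ℝ) ≤ (dset P).card := by exact_mod_cast one_le_dset hP2
  have h2 : (P.card : ℝ) ^ ((2:ℝ) / d - ε) ≤ x₁ ^ 2 := by
    calc (P.card : ℝ) ^ ((2:ℝ) / d - ε) ≤ (P.card : ℝ) ^ (2:ℝ) := by
          apply Real.rpow_le_rpow_of_exponent_le hn1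
          have : (2:ℝ) / d ≤ 2 := by
            rw [div_le_iff₀ (by linarith)]
            linarith
          linarith
      _ = (P.card : ℝ) ^ 2 := Real.rpow_two _
      _ ≤ x₁ ^ 2 := pow_le_pow_left₀ (by linarith) hlt.le 2
  have h3 : (x₁ ^ 2)⁻¹ * (P.card : ℝ) ^ ((2:ℝ) / d - ε) ≤ (x₁ ^ 2)⁻¹ * x₁ ^ 2 :=
    mul_le_mul_of_nonneg_left h2 (by positivity)
  rw [inv_mul_cancel₀ (by positivity)] at h3
  linarith

/-- a stage from a regular piece -/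
theorem stage_fin {s s₂ δ θ : ℝ} {a G' : ℕ} (hs0 : 0 < s) (hss : s ≤ s₂) (hs₂d : s₂ ≤ d)
    (hκa1 : (2:ℝ) ^ ((a:ℝ) * (d - s₂)) ≤ 1 + (2:ℝ)⁻¹ ^ (a * d + 1)) {P' : Finset (Ed d)}
    (hne' : P'.Nonempty) (hunit' : ∀ p ∈ P', UCube p) (hag : a ≤ G')
    (hcell' : ∀ h, h ≤ G' → ∀ κ, ((inCell P' h κ).card : ℝ) ≤
      P'.card * (2:ℝ) ^ (-(h:ℝ) * s₂))
    (hone' : ∀ κ, (inCell P' G' κ).card ≤ 1) (hδ0 : 0 < δ) (hδθ : δ ≤ θ)
    (hsep : ∀ p ∈ P', ∀ q ∈ P', p ≠ q → Real.sqrt d * δ < dist p q)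
    (hbig : (2:ℝ) ^ (a * d + 1) ≤ P'.card * δ ^ s) (hfew : ((dset P').card : ℝ) * δ ≤ θ) :
    Nonempty (Stage d s (4 * 6 ^ d * (6 * ((d:ℝ) + 1)) ^ d) a θ) := by
  have hκa2 : (2:ℝ) ^ ((a:ℝ) * (d - s₂)) ≤ 2 := by
    refine hκa1.trans ?_
    have : (2:ℝ)⁻¹ ^ (a * d + 1) ≤ 1 := pow_le_one₀ (by norm_num) (by norm_num)
    linarith
  have hn'0 : (0:ℝ) < P'.card := by exact_mod_cast Finset.card_pos.2 hne'
  obtain ⟨N, hN⟩ : ∃ N : ℕ, N = ⌈(P'.card : ℝ) * (2:ℝ)⁻¹ ^ (a * d + 1)⌉₊ := ⟨_, rfl⟩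
  have hNle : (P'.card : ℝ) * (2:ℝ)⁻¹ ^ (a * d + 1) ≤ N := by
    rw [hN]
    exact Nat.le_ceil _
  have h22 : (2:ℝ)⁻¹ ^ (a * d + 1) * 2 ^ (a * d + 1) = 1 := by
    rw [← mul_pow]
    norm_num
  have hN' : (P'.card : ℝ) ≤ 2 ^ (a * d + 1) * N := by
    calc (P'.card : ℝ) = 2 ^ (a * d + 1) * ((P'.card : ℝ) * (2:ℝ)⁻¹ ^ (a * d + 1)) := by
          rw [mul_comm, mul_assoc, h22, mul_one]
      _ ≤ _ := mul_le_mul_of_nonneg_left hNle (by positivity)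
  refine ⟨{ P := P', N := N, δ := δ, δpos := hδ0, δle := hδθ, Npos := ?_, NS := ?_,
            unit := hunit', full := ?_, sep := hsep, upper := ?_, few := hfew }⟩
  · rw [hN, Nat.one_le_ceil_iff]
    positivity
  · calc (1:ℝ) = (2:ℝ)⁻¹ ^ (a * d + 1) * 2 ^ (a * d + 1) := h22.symm
      _ ≤ (2:ℝ)⁻¹ ^ (a * d + 1) * ((P'.card : ℝ) * δ ^ s) :=
          mul_le_mul_of_nonneg_left hbig (by positivity)
      _ = ((P'.card : ℝ) * (2:ℝ)⁻¹ ^ (a * d + 1)) * δ ^ s := by ring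
      _ ≤ _ := mul_le_mul_of_nonneg_right hNle (by positivity)
  · intro y hy
    rw [hN, Nat.ceil_le]
    exact cell_lower hunit' hκa1 hs₂d (fun κ' => hcell' a hag κ') hy
  · intro x u hu hu'
    exact ball_upper hs0.le hss hs₂d hκa2 hcell' hone' hN' (hδ0.trans_le hu) hu'

set_option maxHeartbeats 1000000 in
/-- everything after the choice of the parameters -/
theorem stage_aux (hd : 2 ≤ d) {ε s κ lam η θ x₁ β : ℝ} {a : ℕ} (hε : 0 < ε)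
    (hβ : β = 1 - s * (2 / d - ε / 2)) (hs0 : 0 < s) (hκ0 : 0 < κ) (hκs : κ ≤ d - s)
    (hκa : (2:ℝ) ^ ((a:ℝ) * κ) ≤ 1 + (2:ℝ)⁻¹ ^ (a * d + 1))
    (hlam1 : lam ≤ 1 / (2 * d)) (hlam2 : d * lam ≤ β / 2) (hη0 : 0 < η)
    (hη1 : η + 1 / (4 * d) + ε / 2 ≤ 1 / d) (hη2 : d * η / κ ≤ lam) (hx₁ : 1 ≤ x₁)
    (hbad : Bad d ε η (x₁ ^ 2)⁻¹)
    (hE1 : ∀ n, x₁ ≤ n → n ^ (-(2 / d - ε / 2)) ≤ θ) (hE2 : ∀ n, x₁ ≤ n → n ^ (-(ε / 2)) ≤ θ)
    (hE3 : ∀ n, x₁ ≤ n → 4 * ((d:ℝ) + 1) ≤ n ^ (1 / (4 * (d:ℝ))))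
    (hE4 : ∀ n, x₁ ≤ n → ((8 * ((d:ℝ) + 1)) ^ d) ^ (1 / κ) * 2 ^ a ≤ n ^ (1 / (2 * (d:ℝ))))
    (hE5 : ∀ n, x₁ ≤ n → ((8 * ((d:ℝ) + 1)) ^ d) ^ ((d:ℝ) / κ) * 2 ^ (a * d + 1) ≤ n ^ (β / 2)) :
    Nonempty (Stage d s (4 * 6 ^ d * (6 * ((d:ℝ) + 1)) ^ d) a θ) := by
  classical
  have hd2 : (2:ℝ) ≤ d := by exact_mod_cast hd
  have hd0 : (0:ℝ) < d := by linarith
  have hd1 : 1 ≤ d := by omega
  set q : ℝ := 2 / d - ε / 2 with hq
  have hs₂d : (d:ℝ) - κ ≤ d := by linarith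
  have hss : s ≤ d - κ := by linarith
  have hκe : (d:ℝ) - (d - κ) = κ := by ring
  have hκa1 : (2:ℝ) ^ ((a:ℝ) * (d - (d - κ))) ≤ 1 + (2:ℝ)⁻¹ ^ (a * d + 1) := by rwa [hκe]
  obtain ⟨P, r, R, hP2, hr, hsep, hR, hB, hfew⟩ := hbad
  have hnx := card_large hd1 hε hx₁ hP2 hfew
  set n : ℝ := (P.card : ℝ) with hn
  have hn1 : 1 ≤ n := hx₁.trans hnx
  have hn0 : 0 < n := by linarith
  have hc1 : (x₁ ^ 2)⁻¹ ≤ 1 := inv_le_one_of_one_le₀ (one_le_pow₀ hx₁)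
  set B : ℝ := n ^ ((1:ℝ) / d + η) with hBdef
  have hB1 : 1 ≤ B := Real.one_le_rpow hn1 (by positivity)
  obtain ⟨P₁, hcard₁, hunit₁, hsep₁, hdset₁⟩ := normalize hP2 hr hsep hR hB
  obtain ⟨m, hm1, hm2⟩ := exists_nat_pow_near (x := 4 * ((d:ℝ) + 1) * B) (y := 2)
    (by nlinarith) (by norm_num)
  set G : ℕ := m + 1 with hGdef
  have hG2 : (2:ℝ) ^ G ≤ 8 * ((d:ℝ) + 1) * B := by
    rw [hGdef, pow_succ]
    linarith
  have hG1 : 4 * ((d:ℝ) + 1) * B < (2:ℝ) ^ G := hm2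
  have h2G : (0:ℝ) < 2 ^ G := by positivity
  have hone : ∀ κ', (inCell P₁ G κ').card ≤ 1 := by
    intro κ'
    rw [Finset.card_le_one]
    intro p hp p' hp'
    by_contra hne
    rw [mem_inCell] at hp hp'
    have h1 := dist_le_of_cell_eq (hp.2.trans hp'.2.symm)
    have h2 := hsep₁ p hp.1 p' hp'.1 hne
    have h3 : Real.sqrt d * (2:ℝ)⁻¹ ^ G < 1 / (4 * B) := by
      rw [inv_pow, ← div_eq_mul_inv, div_lt_div_iff₀ h2G (by positivity)]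
      have := sqrt_le_add d
      nlinarith
    linarith
  have hP₁ne : P₁.Nonempty := Finset.card_pos.1 (by omega)
  obtain ⟨g, P', hgG, hne', hunit', hn', hcell', hone', hsep', hdset'⟩ :=
    reg hP₁ne hunit₁ hone (d - κ)
  rw [hcard₁] at hn'
  set n' : ℝ := (P'.card : ℝ) with hn'def
  have hn'0 : 0 < n' := by
    rw [hn'def]
    exact_mod_cast Finset.card_pos.2 hne'
  have hn'le : n' ≤ (2:ℝ) ^ (((G:ℝ) - g) * d) := by
    have h1 := card_eq_sum_cells hunit' (G - g)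
    have h2 : P'.card ≤ 2 ^ ((G - g) * d) := by
      rw [h1]
      calc ∑ κ' ∈ grid d (G - g), (inCell P' (G - g) κ').card
          ≤ ∑ _κ' ∈ grid d (G - g), 1 := Finset.sum_le_sum fun κ' _ => hone' κ'
        _ = _ := by rw [Finset.sum_const, card_grid]; simp
    have h3 : n' ≤ (2:ℝ) ^ ((G - g) * d) := by
      rw [hn'def]
      exact_mod_cast h2
    refine h3.trans (le_of_eq ?_)
    rw [← Real.rpow_natCast]
    congr 1
    push_cast [Nat.cast_sub hgG]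
    ring
  have hgκ := g_bound1 hd1 hn0 hn' hn'le hBdef hG2
  have hg2 := g_bound2 hn1 hκ0 (by positivity : (0:ℝ) < (8 * ((d:ℝ) + 1)) ^ d) hη2 hgκ
  have hga : g + a < G := g_bound3 hd1 hn1 hlam1
    (Real.rpow_le_rpow_of_exponent_le hn1 (by linarith)) (hE4 n hnx) hg2 hG1
  have hnn' := nn_bound (b := β / 2) hn1 hn'0 (by positivity) hs₂d hlam2 hn' hg2
  set δ : ℝ := n ^ (-q) with hδ
  have hδ0 : 0 < δ := by positivity
  have hδs : δ ^ s = n ^ (β - 1) := by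
    rw [hδ, ← Real.rpow_mul hn0.le]
    congr 1
    rw [hβ]
    ring
  have hbig : (2:ℝ) ^ (a * d + 1) ≤ n' * δ ^ s :=
    big_bound hn0 (by positivity) hnn' hδs (hE5 n hnx)
  refine stage_fin hs0 hss hs₂d hκa1 hne' hunit' (G' := G - g) (by omega)
    (fun h hh κ' => hcell' h (by omega) κ') hone' hδ0 (hE1 n hnx) ?_ hbig ?_
  · intro p hp p' hp' hne
    obtain ⟨p₁, hp₁, q₁, hq₁, hne₁, he⟩ := hsep' p hp p' hp' hne
    rw [he]
    have h1 := hsep₁ p₁ hp₁ q₁ hq₁ hne₁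
    have h2 : (1:ℝ) ≤ 2 ^ g := one_le_pow₀ (by norm_num)
    have hBδ : B * δ ≤ n ^ (-(1 / (4 * (d:ℝ)))) := by
      rw [hBdef, hδ, ← Real.rpow_add hn0]
      apply Real.rpow_le_rpow_of_exponent_le hn1
      rw [hq]
      have e2 : (2:ℝ) / d = 2 * (1 / d) := by ring
      rw [e2]
      linarith
    have h3 := sep_bound hd1 hn1 (by linarith) hδ0 hBδ (hE3 n hnx)
    have h4 : 0 ≤ dist p₁ q₁ := dist_nonneg
    nlinarith
  · have h1 : ((dset P').card : ℝ) ≤ (dset P).card := by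
      exact_mod_cast hdset'.trans hdset₁
    have h2 : ((dset P').card : ℝ) ≤ n ^ ((2:ℝ) / d - ε) := by
      refine h1.trans (hfew.le.trans ?_)
      have : 0 ≤ n ^ ((2:ℝ) / d - ε) := by positivity
      nlinarith
    calc ((dset P').card : ℝ) * δ ≤ n ^ ((2:ℝ) / d - ε) * δ :=
          mul_le_mul_of_nonneg_right h2 hδ0.le
      _ = n ^ (-(ε / 2)) := by
          rw [hδ, ← Real.rpow_add hn0]
          congr 1
          rw [hq]
          ring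
      _ ≤ θ := hE2 n hnx

theorem stage_of (hd : 2 ≤ d) {ε : ℝ} (hε : 0 < ε) (hε1 : ε * d ≤ 1)
    (hbad : ∀ η > 0, ∀ c > 0, Bad d ε η c) (a : ℕ) (θ : ℝ) (hθ : 0 < θ) :
    Nonempty (Stage d ((d:ℝ) / 2 * (1 + ε * d / 8)) (4 * 6 ^ d * (6 * ((d:ℝ) + 1)) ^ d) a θ) := by
  have hd2 : (2:ℝ) ≤ d := by exact_mod_cast hd
  have hd0 : (0:ℝ) < d := by linarith
  set s : ℝ := (d:ℝ) / 2 * (1 + ε * d / 8) with hs
  set β : ℝ := 1 - s * (2 / d - ε / 2) with hβ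
  have hy0 : 0 < ε * d := by positivity
  have hsq : s * (2 / d - ε / 2) = (1 + ε * d / 8) * (1 - ε * d / 4) := by
    rw [hs]
    field_simp
    ring
  have hβ0 : 0 < β := by
    rw [hβ, hsq]
    nlinarith
  have hs0 : 0 < s := by positivity
  have hsd : s < d := by
    rw [hs]
    nlinarith
  have hεd : ε ≤ 1 / d := by rw [le_div_iff₀ hd0]; exact hε1
  have hdi : 0 < 1 / (d:ℝ) := by positivity
  have hq0 : 0 < 2 / d - ε / 2 := by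
    have : (2:ℝ) / d = 1 / d + 1 / d := by ring
    linarith
  obtain ⟨κ, hκ0, hκs, hκa⟩ := choose_kappa hsd a
  set lam : ℝ := min (1 / (2 * d)) (β / (2 * d)) with hlam
  have hlam0 : 0 < lam := lt_min (by positivity) (by positivity)
  have hlam2 : d * lam ≤ β / 2 := by
    have h1 := min_le_right (1 / (2 * (d:ℝ))) (β / (2 * d))
    calc (d:ℝ) * lam ≤ d * (β / (2 * d)) := mul_le_mul_of_nonneg_left h1 hd0.le
      _ = β / 2 := by field_simp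
  set η : ℝ := min (κ * lam / d) (1 / (4 * d)) with hη
  have hη0 : 0 < η := lt_min (by positivity) (by positivity)
  have hη1 : η ≤ 1 / (4 * d) := min_le_right _ _
  have hη2 : d * η / κ ≤ lam := by
    have h1 := min_le_left (κ * lam / d) (1 / (4 * (d:ℝ)))
    rw [div_le_iff₀ hκ0]
    calc (d:ℝ) * η ≤ d * (κ * lam / d) := mul_le_mul_of_nonneg_left h1 hd0.le
      _ = lam * κ := by field_simp
  obtain ⟨x₀, hx₀⟩ := eventually_atTop.1 (((small_pow hq0 hθ).and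
    ((small_pow (by positivity : 0 < ε / 2) hθ).and
    ((large_pow (p := 1 / (4 * (d:ℝ))) (K := 4 * ((d:ℝ) + 1)) (by positivity)).and
    ((large_pow (p := 1 / (2 * (d:ℝ))) (K := ((8 * ((d:ℝ) + 1)) ^ d) ^ (1 / κ) * 2 ^ a)
      (by positivity)).and
    (large_pow (p := β / 2) (K := ((8 * ((d:ℝ) + 1)) ^ d) ^ ((d:ℝ) / κ) * 2 ^ (a * d + 1))
      (by positivity)))))))
  have hx : ∀ n, max x₀ 1 ≤ n → x₀ ≤ n := fun n hn => (le_max_left _ _).trans hn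
  refine stage_aux (x₁ := max x₀ 1) hd hε hβ hs0 hκ0 hκs hκa (min_le_left _ _) hlam2 hη0 ?_ hη2
    (le_max_right _ _) (hbad η hη0 _ (by positivity)) (fun n hn => (hx₀ n (hx n hn)).1)
    (fun n hn => (hx₀ n (hx n hn)).2.1) (fun n hn => (hx₀ n (hx n hn)).2.2.1)
    (fun n hn => (hx₀ n (hx n hn)).2.2.2.1) (fun n hn => (hx₀ n (hx n hn)).2.2.2.2)
  have e1 : (1:ℝ) / (4 * d) = 1 / d / 4 := by ring
  rw [e1] at hη1 ⊢
  linarith

end Vale.Agent.P054.Spread
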