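import Vale.Agent.P054.Spread.Basic

/-! Distinct distances of sets of nearly minimal spread: regular pieces (helper352). -/

namespace Vale.Agent.P054.Spread

open Set Metric Finset

variable {d : ℕ}

/-- a ball of radius at most `2^{-h}` meets at most `3^d` cells of generation `h` -/
theorem card_inBall_le {P : Finset (Ed d)} {h : ℕ} {M : ℝ}
    (hc : ∀ κ, ((inCell P h κ).card : ℝ) ≤ M) (x : Ed d) {u : ℝ} (hu : u ≤ (2:ℝ)⁻¹ ^ h) :
    ((inBall P x u).card : ℝ) ≤ 3 ^ d * M := by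
  classical
  set T : Finset (Fin d → ℤ) :=
    Fintype.piFinset fun i => Finset.Icc (cell h x i - 1) (cell h x i + 1) with hT
  have hsub : inBall P x u ⊆ T.biUnion fun κ => inCell P h κ := by
    intro p hp
    rw [mem_inBall] at hp
    refine Finset.mem_biUnion.2 ⟨cell h p, ?_, mem_inCell.2 ⟨hp.1, rfl⟩⟩
    rw [hT, Fintype.mem_piFinset]
    intro i
    have h1 : |p i - x i| ≤ (2:ℝ)⁻¹ ^ h := (coord_le_dist p x i).trans (hp.2.trans hu)
    have h2 : |(2:ℝ) ^ h * p i - (2:ℝ) ^ h * x i| ≤ 1 := by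
      rw [← mul_sub, abs_mul, abs_of_pos (by positivity : (0:ℝ) < 2 ^ h)]
      calc (2:ℝ) ^ h * |p i - x i| ≤ (2:ℝ) ^ h * (2:ℝ)⁻¹ ^ h :=
            mul_le_mul_of_nonneg_left h1 (by positivity)
        _ = 1 := by rw [← mul_pow]; norm_num
    rw [abs_le] at h2
    rw [Finset.mem_Icc]
    unfold cell
    constructor
    · rw [Int.le_floor]
      push_cast
      have := Int.floor_le ((2:ℝ) ^ h * x i)
      linarith
    · have h3 : ⌊(2:ℝ) ^ h * p i⌋ ≤ ⌊(2:ℝ) ^ h * x i + 1⌋ := Int.floor_le_floor (by linarith)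
      rwa [Int.floor_add_one] at h3
  have hcard : T.card = 3 ^ d := by
    rw [hT, Fintype.card_piFinset]
    have : ∀ i ∈ (Finset.univ : Finset (Fin d)),
        (Finset.Icc (cell h x i - 1) (cell h x i + 1)).card = 3 := by
      intro i _
      rw [Int.card_Icc]
      omega
    rw [Finset.prod_congr rfl this]
    simp
  calc ((inBall P x u).card : ℝ) ≤ ((T.biUnion fun κ => inCell P h κ).card : ℝ) := by
        exact_mod_cast Finset.card_le_card hsub
    _ ≤ ((∑ κ ∈ T, (inCell P h κ).card : ℕ) : ℝ) := by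
        exact_mod_cast Finset.card_biUnion_le
    _ = ∑ κ ∈ T, ((inCell P h κ).card : ℝ) := by push_cast; rfl
    _ ≤ ∑ _κ ∈ T, M := Finset.sum_le_sum fun κ _ => hc κ
    _ = 3 ^ d * M := by
        rw [Finset.sum_const, hcard, nsmul_eq_mul]
        push_cast
        rfl

/-- the cells of generation `h` of the unit cube -/
noncomputable def grid (d h : ℕ) : Finset (Fin d → ℤ) :=
  Fintype.piFinset fun _ => Finset.Ico (0:ℤ) ((2:ℤ) ^ h)

theorem card_grid (d h : ℕ) : (grid d h).card = 2 ^ (h * d) := by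
  unfold grid
  rw [Fintype.card_piFinset]
  simp only [Int.card_Ico, sub_zero, Finset.prod_const, Finset.card_univ, Fintype.card_fin]
  have : ((2:ℤ) ^ h).toNat = 2 ^ h := by
    have h1 : ((2:ℤ) ^ h) = ((2 ^ h : ℕ) : ℤ) := by push_cast; rfl
    rw [h1, Int.toNat_natCast]
  rw [this, ← pow_mul]

theorem cell_mem_grid {x : Ed d} (hx : UCube x) (h : ℕ) : cell h x ∈ grid d h := by
  unfold grid cell
  rw [Fintype.mem_piFinset]
  intro i
  rw [Finset.mem_Ico]
  have hp : (0:ℝ) < 2 ^ h := by positivity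
  constructor
  · exact Int.floor_nonneg.2 (mul_nonneg hp.le (hx i).1)
  · rw [Int.floor_lt]
    push_cast
    have := (hx i).2
    nlinarith

theorem card_eq_sum_cells {P : Finset (Ed d)} (hP : ∀ p ∈ P, UCube p) (h : ℕ) :
    P.card = ∑ κ ∈ grid d h, (inCell P h κ).card := by
  classical
  rw [Finset.card_eq_sum_card_fiberwise (f := fun p => cell h p) (t := grid d h)
    (fun p hp => cell_mem_grid (hP p hp) h)]
  rfl

/-- the similarity of a cell onto the unit cube -/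
noncomputable def phi (g : ℕ) (Q : Fin d → ℤ) (x : Ed d) : Ed d :=
  (2:ℝ) ^ g • x - WithLp.toLp 2 (fun i => (Q i : ℝ))

theorem phi_apply (g : ℕ) (Q : Fin d → ℤ) (x : Ed d) (i : Fin d) :
    phi g Q x i = (2:ℝ) ^ g * x i - Q i := by
  simp [phi]

theorem dist_phi (g : ℕ) (Q : Fin d → ℤ) (x y : Ed d) :
    dist (phi g Q x) (phi g Q y) = (2:ℝ) ^ g * dist x y := by
  unfold phi
  rw [dist_sub_right, dist_smul₀, Real.norm_of_nonneg (by positivity)]

theorem phi_inj (g : ℕ) (Q : Fin d → ℤ) : Function.Injective (phi g Q) := by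
  intro x y h
  have h1 := dist_phi g Q x y
  rw [h, dist_self] at h1
  have h2 : dist x y = 0 := by
    rcases mul_eq_zero.1 h1.symm with h3 | h3
    · exact absurd h3 (by positivity)
    · exact h3
  exact dist_eq_zero.1 h2

theorem cell_phi (g h : ℕ) (Q : Fin d → ℤ) (x : Ed d) (i : Fin d) :
    cell h (phi g Q x) i = cell (g + h) x i - 2 ^ h * Q i := by
  unfold cell
  rw [phi_apply, ← Int.floor_sub_intCast]
  congr 1
  push_cast
  rw [pow_add]
  ring

/-- the regular piece -/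
theorem reg {P : Finset (Ed d)} (hP : P.Nonempty) (hu : ∀ p ∈ P, UCube p) {G : ℕ}
    (hG : ∀ κ, (inCell P G κ).card ≤ 1) (s₂ : ℝ) :
    ∃ (g : ℕ) (P' : Finset (Ed d)), g ≤ G ∧ P'.Nonempty ∧ (∀ p ∈ P', UCube p) ∧
      (P.card : ℝ) ≤ P'.card * (2:ℝ) ^ ((g:ℝ) * s₂) ∧
      (∀ h, g + h ≤ G → ∀ κ, ((inCell P' h κ).card : ℝ) ≤ P'.card * (2:ℝ) ^ (-(h:ℝ) * s₂)) ∧
      (∀ κ, (inCell P' (G - g) κ).card ≤ 1) ∧
      (∀ p ∈ P', ∀ q ∈ P', p ≠ q → ∃ p₁ ∈ P, ∃ q₁ ∈ P, p₁ ≠ q₁ ∧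
        dist p q = (2:ℝ) ^ g * dist p₁ q₁) ∧
      (dset P').card ≤ (dset P).card := by
  classical
  obtain ⟨⟨g, p₀⟩, hgp, hmax⟩ := Finset.exists_max_image (Finset.range (G + 1) ×ˢ P)
    (fun z => ((inCell P z.1 (cell z.1 z.2)).card : ℝ) * (2:ℝ) ^ ((z.1:ℝ) * s₂))
    (by obtain ⟨p, hp⟩ := hP
        exact ⟨(0, p), Finset.mem_product.2 ⟨Finset.mem_range.2 (by omega), hp⟩⟩)
  rw [Finset.mem_product, Finset.mem_range] at hgp
  obtain ⟨hg, hp₀⟩ := hgp
  simp only at hg hp₀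
  set Q : Fin d → ℤ := cell g p₀ with hQ
  set P' : Finset (Ed d) := (inCell P g Q).image (phi g Q) with hP'
  have hcard : P'.card = (inCell P g Q).card := Finset.card_image_of_injective _ (phi_inj g Q)
  have hmax' : ∀ h ≤ G, ∀ κ, ((inCell P h κ).card : ℝ) * (2:ℝ) ^ ((h:ℝ) * s₂) ≤
      P'.card * (2:ℝ) ^ ((g:ℝ) * s₂) := by
    intro h hh κ
    rcases (inCell P h κ).eq_empty_or_nonempty with he | ⟨q, hq⟩
    · rw [he]
      simp only [Finset.card_empty, Nat.cast_zero, zero_mul]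
      positivity
    · rw [mem_inCell] at hq
      have h1 := hmax (h, q) (Finset.mem_product.2 ⟨Finset.mem_range.2 (by omega), hq.1⟩)
      simp only at h1
      rw [hq.2, ← hcard] at h1
      exact h1
  have hsubcell : ∀ h κ, (inCell P' h κ).card ≤
      (inCell P (g + h) (fun i => κ i + 2 ^ h * Q i)).card := by
    intro h κ
    have h1 : inCell P' h κ ⊆
        (inCell P (g + h) (fun i => κ i + 2 ^ h * Q i)).image (phi g Q) := by
      intro p hp
      rw [mem_inCell, hP', Finset.mem_image] at hp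
      obtain ⟨⟨q, hq, rfl⟩, hc⟩ := hp
      refine Finset.mem_image.2 ⟨q, mem_inCell.2 ⟨(mem_inCell.1 hq).1, ?_⟩, rfl⟩
      funext i
      have h2 := congrFun hc i
      rw [cell_phi] at h2
      rw [← h2]
      ring
    exact (Finset.card_le_card h1).trans Finset.card_image_le
  refine ⟨g, P', by omega, ?_, ?_, ?_, ?_, ?_, ?_, ?_⟩
  · exact ⟨phi g Q p₀, Finset.mem_image.2 ⟨p₀, mem_inCell.2 ⟨hp₀, rfl⟩, rfl⟩⟩
  · intro p hp i
    rw [hP', Finset.mem_image] at hp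
    obtain ⟨q, hq, rfl⟩ := hp
    rw [mem_inCell] at hq
    rw [phi_apply, ← hq.2]
    unfold cell
    have h1 := Int.floor_le ((2:ℝ) ^ g * q i)
    have h2 := Int.lt_floor_add_one ((2:ℝ) ^ g * q i)
    constructor <;> linarith
  · obtain ⟨p, hp⟩ := hP
    have h1 := hmax' 0 (by omega) (cell 0 p)
    have h2 : inCell P 0 (cell 0 p) = P := by
      refine Finset.filter_true_of_mem fun q hq => ?_
      have h3 : ∀ z ∈ P, cell 0 z = fun _ => 0 := by
        intro z hz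
        funext i
        unfold cell
        rw [Int.floor_eq_zero_iff]
        have := hu z hz i
        simpa using this
      rw [h3 q hq, h3 p hp]
    rw [h2] at h1
    simpa using h1
  · intro h hh κ
    have h1 := hmax' (g + h) hh (fun i => κ i + 2 ^ h * Q i)
    have h2 : ((inCell P' h κ).card : ℝ) ≤ (inCell P (g + h) (fun i => κ i + 2 ^ h * Q i)).card := by
      exact_mod_cast hsubcell h κ
    have h3 : (0:ℝ) < (2:ℝ) ^ (((g + h : ℕ) : ℝ) * s₂) := by positivity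
    have h4 : ((inCell P' h κ).card : ℝ) * (2:ℝ) ^ (((g + h : ℕ) : ℝ) * s₂) ≤
        P'.card * (2:ℝ) ^ ((g:ℝ) * s₂) :=
      (mul_le_mul_of_nonneg_right h2 h3.le).trans h1
    have h5 : (2:ℝ) ^ (((g + h : ℕ) : ℝ) * s₂) = (2:ℝ) ^ ((g:ℝ) * s₂) * (2:ℝ) ^ ((h:ℝ) * s₂) := by
      rw [← Real.rpow_add (by norm_num)]
      congr 1
      push_cast
      ring
    have h6 : (2:ℝ) ^ (-(h:ℝ) * s₂) = ((2:ℝ) ^ ((h:ℝ) * s₂))⁻¹ := by
      rw [← Real.rpow_neg (by norm_num)]
      congr 1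
      ring
    rw [h6, ← div_eq_mul_inv, le_div_iff₀ (by positivity)]
    have h7 : (0:ℝ) < (2:ℝ) ^ ((g:ℝ) * s₂) := by positivity
    rw [h5] at h4
    have h8 : ((inCell P' h κ).card : ℝ) * (2:ℝ) ^ ((h:ℝ) * s₂) * (2:ℝ) ^ ((g:ℝ) * s₂) ≤
        P'.card * (2:ℝ) ^ ((g:ℝ) * s₂) := by
      calc _ = ((inCell P' h κ).card : ℝ) * ((2:ℝ) ^ ((g:ℝ) * s₂) * (2:ℝ) ^ ((h:ℝ) * s₂)) := by ring
        _ ≤ _ := h4
    exact le_of_mul_le_mul_right h8 h7
  · intro κ
    have h1 := hsubcell (G - g) κ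
    rw [Nat.add_sub_cancel' (by omega : g ≤ G)] at h1
    exact h1.trans (hG _)
  · intro p hp q hq hpq
    rw [hP', Finset.mem_image] at hp hq
    obtain ⟨p₁, hp₁, rfl⟩ := hp
    obtain ⟨q₁, hq₁, rfl⟩ := hq
    refine ⟨p₁, (mem_inCell.1 hp₁).1, q₁, (mem_inCell.1 hq₁).1, fun h => hpq (by rw [h]), ?_⟩
    rw [dist_phi]
  · have h1 : dset P' ⊆ (dset P).image fun t => (2:ℝ) ^ g * t := by
      intro t ht
      obtain ⟨p, hp, q, hq, hpq, rfl⟩ := mem_dset.1 ht
      rw [hP', Finset.mem_image] at hp hq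
      obtain ⟨p₁, hp₁, rfl⟩ := hp
      obtain ⟨q₁, hq₁, rfl⟩ := hq
      refine Finset.mem_image.2 ⟨dist p₁ q₁, mem_dset.2 ⟨p₁, (mem_inCell.1 hp₁).1, q₁,
        (mem_inCell.1 hq₁).1, fun h => hpq (by rw [h]), rfl⟩, ?_⟩
      rw [dist_phi]
    exact (Finset.card_le_card h1).trans Finset.card_image_le

end Vale.Agent.P054.Spread
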