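import Vale.Agent.P054.Spread.Frost
import Vale.Agent.P054.Spread.Reg

/-! Distinct distances of sets of nearly minimal spread: stages from bad sets (helper352). -/

namespace Vale.Agent.P054.Spread

open Set Metric Finset Filter
open scoped Topology

variable {d : ℕ}

/-- normalisation of a set into the unit cube -/
theorem normalize {P : Finset (Ed d)} {r R B : ℝ} (hP : 2 ≤ P.card) (hr : 0 < r)
    (hsep : ∀ p ∈ P, ∀ q ∈ P, p ≠ q → r ≤ dist p q) (hR : ∀ p ∈ P, ∀ q ∈ P, dist p q ≤ R)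
    (hB : R ≤ r * B) :
    ∃ P₁ : Finset (Ed d), P₁.card = P.card ∧ (∀ p ∈ P₁, UCube p) ∧
      (∀ p ∈ P₁, ∀ q ∈ P₁, p ≠ q → 1 / (4 * B) ≤ dist p q) ∧
      (dset P₁).card ≤ (dset P).card := by
  classical
  obtain ⟨p₀, hp₀, q₀, hq₀, hne⟩ := Finset.one_lt_card.1 (by omega : 1 < P.card)
  have hR0 : 0 < R := hr.trans_le ((hsep p₀ hp₀ q₀ hq₀ hne).trans (hR p₀ hp₀ q₀ hq₀))
  have hB0 : 0 < B := by
    by_contra h
    push Not at h
    have := mul_nonpos_of_nonneg_of_nonpos hr.le h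
    linarith
  set v : Ed d := WithLp.toLp 2 (fun _ => (1:ℝ) / 2) with hv
  set ψ : Ed d → Ed d := fun x => (1 / (4 * R)) • (x - p₀) + v with hψ
  have hψd : ∀ x y, dist (ψ x) (ψ y) = 1 / (4 * R) * dist x y := by
    intro x y
    rw [hψ]
    simp only
    rw [dist_add_right, dist_smul₀, dist_sub_right, Real.norm_of_nonneg (by positivity)]
  have hinj : Function.Injective ψ := by
    intro x y h
    have h1 := hψd x y
    rw [h, dist_self] at h1
    rcases mul_eq_zero.1 h1.symm with h3 | h3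
    · exact absurd h3 (by positivity)
    · exact dist_eq_zero.1 h3
  refine ⟨P.image ψ, Finset.card_image_of_injective _ hinj, ?_, ?_, ?_⟩
  · intro p hp i
    obtain ⟨x, hx, rfl⟩ := Finset.mem_image.1 hp
    have h1 : |x i - p₀ i| ≤ R := (coord_le_dist x p₀ i).trans (hR x hx p₀ hp₀)
    have h2 : ψ x i = (1 / (4 * R)) * (x i - p₀ i) + 1 / 2 := by
      simp [hψ, hv]
    rw [h2]
    rw [abs_le] at h1
    have h3 : (1 / (4 * R)) * R = 1 / 4 := by field_simp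
    have h4 : 0 < 1 / (4 * R) := by positivity
    constructor
    · nlinarith
    · nlinarith
  · intro p hp q hq hpq
    obtain ⟨x, hx, rfl⟩ := Finset.mem_image.1 hp
    obtain ⟨y, hy, rfl⟩ := Finset.mem_image.1 hq
    have hxy : x ≠ y := fun h => hpq (by rw [h])
    rw [hψd]
    have h1 := hsep x hx y hy hxy
    calc 1 / (4 * B) = r / (4 * (r * B)) := by field_simp
      _ ≤ r / (4 * R) := by gcongr
      _ = 1 / (4 * R) * r := by ring
      _ ≤ 1 / (4 * R) * dist x y := by gcongr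
  · have h1 : dset (P.image ψ) ⊆ (dset P).image fun t => 1 / (4 * R) * t := by
      intro t ht
      obtain ⟨p, hp, q, hq, hpq, rfl⟩ := mem_dset.1 ht
      obtain ⟨x, hx, rfl⟩ := Finset.mem_image.1 hp
      obtain ⟨y, hy, rfl⟩ := Finset.mem_image.1 hq
      exact Finset.mem_image.2 ⟨dist x y, mem_dset.2 ⟨x, hx, y, hy, fun h => hpq (by rw [h]), rfl⟩,
        (hψd x y).symm⟩
    exact (Finset.card_le_card h1).trans Finset.card_image_le

/-- lower bound for the number of points in the cells of a regular piece -/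
theorem cell_lower {P' : Finset (Ed d)} (hu : ∀ p ∈ P', UCube p) {a : ℕ} {s₂ : ℝ}
    (hκ : (2:ℝ) ^ ((a:ℝ) * (d - s₂)) ≤ 1 + (2:ℝ)⁻¹ ^ (a * d + 1)) (hs₂ : s₂ ≤ d)
    (hup : ∀ κ, ((inCell P' a κ).card : ℝ) ≤ P'.card * (2:ℝ) ^ (-(a:ℝ) * s₂)) {y : Ed d}
    (hy : UCube y) : (P'.card : ℝ) * (2:ℝ)⁻¹ ^ (a * d + 1) ≤ (inCell P' a (cell a y)).card := by
  classical
  have hmem := cell_mem_grid hy a
  have h1 : (P'.card : ℝ) = ∑ κ ∈ grid d a, ((inCell P' a κ).card : ℝ) := by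
    exact_mod_cast card_eq_sum_cells hu a
  rw [← Finset.add_sum_erase _ _ hmem] at h1
  have h2 : ∑ κ ∈ (grid d a).erase (cell a y), ((inCell P' a κ).card : ℝ) ≤
      ((2:ℝ) ^ (a * d) - 1) * (P'.card * (2:ℝ) ^ (-(a:ℝ) * s₂)) := by
    refine (Finset.sum_le_sum fun κ _ => hup κ).trans ?_
    rw [Finset.sum_const, nsmul_eq_mul, Finset.card_erase_of_mem hmem, card_grid,
      Nat.cast_sub (Nat.one_le_two_pow)]
    push_cast
    exact le_rfl
  have h3 : ((2:ℝ) ^ (a * d)) * (2:ℝ) ^ (-(a:ℝ) * s₂) = (2:ℝ) ^ ((a:ℝ) * (d - s₂)) := by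
    rw [← Real.rpow_natCast 2 (a * d), ← Real.rpow_add (by norm_num)]
    congr 1
    push_cast
    ring
  have h4 : (2:ℝ)⁻¹ ^ (a * d) ≤ (2:ℝ) ^ (-(a:ℝ) * s₂) := by
    rw [inv_pow, ← Real.rpow_natCast 2 (a * d), ← Real.rpow_neg (by norm_num)]
    apply Real.rpow_le_rpow_of_exponent_le (by norm_num)
    push_cast
    have : (0:ℝ) ≤ a := Nat.cast_nonneg a
    nlinarith
  have h5 : (2:ℝ)⁻¹ ^ (a * d + 1) = (2:ℝ)⁻¹ ^ (a * d) / 2 := by
    rw [pow_succ]
    ring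
  have h6 : (0:ℝ) ≤ P'.card := Nat.cast_nonneg _
  have h7 : ((2:ℝ) ^ (a * d) - 1) * (P'.card * (2:ℝ) ^ (-(a:ℝ) * s₂)) =
      P'.card * ((2:ℝ) ^ ((a:ℝ) * (d - s₂)) - (2:ℝ) ^ (-(a:ℝ) * s₂)) := by
    rw [← h3]
    ring
  rw [h7] at h2
  have h8 : P'.card * ((2:ℝ) ^ ((a:ℝ) * (d - s₂)) - (2:ℝ) ^ (-(a:ℝ) * s₂)) ≤
      P'.card * (1 - (2:ℝ)⁻¹ ^ (a * d + 1)) := by
    apply mul_le_mul_of_nonneg_left _ h6
    linarith
  nlinarith

/-- upper bound for the number of points of a regular piece in balls -/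
theorem ball_upper {P' : Finset (Ed d)} {a N G' : ℕ} {s s₂ : ℝ} (hs : 0 ≤ s) (hss : s ≤ s₂)
    (hs₂ : s₂ ≤ d) (hκ : (2:ℝ) ^ ((a:ℝ) * (d - s₂)) ≤ 2)
    (hup : ∀ h, h ≤ G' → ∀ κ, ((inCell P' h κ).card : ℝ) ≤ P'.card * (2:ℝ) ^ (-(h:ℝ) * s₂))
    (hone : ∀ κ, (inCell P' G' κ).card ≤ 1)
    (hN : (P'.card : ℝ) ≤ 2 ^ (a * d + 1) * N) {x : Ed d} {u : ℝ} (hu0 : 0 < u)
    (hu : u ≤ 6 * (d + 1) * (2:ℝ)⁻¹ ^ a) :
    ((inBall P' x u).card : ℝ) ≤
      (4 * 6 ^ d * (6 * ((d:ℝ) + 1)) ^ d) * (1 + N * ((2:ℝ) ^ a * u) ^ s) := by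
  classical
  set K : ℝ := 6 * ((d:ℝ) + 1) with hK
  have hd0 : (0:ℝ) ≤ d := Nat.cast_nonneg d
  have hK1 : 1 ≤ K := by rw [hK]; linarith
  have hN0 : (0:ℝ) ≤ N := Nat.cast_nonneg N
  have h2a : (0:ℝ) < (2:ℝ) ^ a := by positivity
  set w : ℝ := (2:ℝ) ^ a * u with hw
  have hw0 : 0 < w := by positivity
  have hwK : w ≤ K := by
    calc w = (2:ℝ) ^ a * u := rfl
      _ ≤ (2:ℝ) ^ a * (6 * (d + 1) * (2:ℝ)⁻¹ ^ a) := mul_le_mul_of_nonneg_left hu h2a.le
      _ = K * ((2:ℝ) * 2⁻¹) ^ a := by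
          rw [mul_pow, hK]
          ring
      _ = K := by norm_num
  have h6d : (1:ℝ) ≤ 6 ^ d := one_le_pow₀ (by norm_num)
  have hKd : (1:ℝ) ≤ K ^ d := one_le_pow₀ hK1
  have hws : 0 < w ^ s := Real.rpow_pos_of_pos hw0 s
  rcases le_or_gt u 1 with hu1 | hu1
  · -- choose the generation
    obtain ⟨h, hh1, hh2⟩ : ∃ h : ℕ, u ≤ (2:ℝ)⁻¹ ^ h ∧ (2:ℝ)⁻¹ ^ h ≤ 2 * u := by
      obtain ⟨b, hb1, hb2⟩ := exists_gen hu0 hu1
      rcases Nat.eq_zero_or_pos b with rfl | hb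
      · refine ⟨0, by simpa using hu1, ?_⟩
        simp only [pow_zero] at hb1 ⊢
        linarith
      · refine ⟨b - 1, ?_⟩
        have h3 : (2:ℝ)⁻¹ ^ b = (2:ℝ)⁻¹ ^ (b - 1) * 2⁻¹ := by
          rw [← pow_succ]
          congr 1
          omega
        rw [h3] at hb1 hb2
        constructor <;> linarith
    rcases le_or_gt h G' with hG | hG
    · have h1 := card_inBall_le (fun κ => hup h hG κ) x hh1
      have h2 : (2:ℝ) ^ (-(h:ℝ) * s₂) = ((2:ℝ)⁻¹ ^ h) ^ s₂ := by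
        rw [Real.rpow_mul (by norm_num), Real.rpow_neg (by norm_num), Real.rpow_natCast, inv_pow]
      have hs₂0 : 0 ≤ s₂ := hs.trans hss
      have h3 : (2:ℝ) ^ (-(h:ℝ) * s₂) ≤ (2 * u) ^ s₂ := by
        rw [h2]
        exact Real.rpow_le_rpow (by positivity) hh2 hs₂0
      have h4 : (2:ℝ) ^ (a * d + 1) * (2 * u) ^ s₂ ≤ 4 * 2 ^ d * w ^ s₂ := by
        have h5 : (2:ℝ) ^ (a * d + 1) = 2 * ((2:ℝ) ^ ((a:ℝ) * (d - s₂)) * ((2:ℝ) ^ a) ^ s₂) := by
          rw [← Real.rpow_natCast 2 a, ← Real.rpow_mul (by norm_num),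
            ← Real.rpow_add (by norm_num), ← Real.rpow_natCast 2 (a * d + 1)]
          push_cast
          rw [Real.rpow_add (by norm_num), Real.rpow_one, mul_comm]
          congr 2
          ring
        have h6 : (2 * u) ^ s₂ = (2:ℝ) ^ s₂ * u ^ s₂ := Real.mul_rpow (by norm_num) hu0.le
        have h7 : w ^ s₂ = ((2:ℝ) ^ a) ^ s₂ * u ^ s₂ := Real.mul_rpow h2a.le hu0.le
        have h8 : (2:ℝ) ^ s₂ ≤ 2 ^ d := by
          rw [← Real.rpow_natCast 2 d]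
          exact Real.rpow_le_rpow_of_exponent_le (by norm_num) hs₂
        have h9 : 0 < (2:ℝ) ^ s₂ := by positivity
        have h10 : 0 < (2:ℝ) ^ ((a:ℝ) * (d - s₂)) := by positivity
        have h11 : 0 < w ^ s₂ := Real.rpow_pos_of_pos hw0 _
        rw [h5, h6]
        calc 2 * ((2:ℝ) ^ ((a:ℝ) * (d - s₂)) * ((2:ℝ) ^ a) ^ s₂) * ((2:ℝ) ^ s₂ * u ^ s₂)
            = 2 * ((2:ℝ) ^ ((a:ℝ) * (d - s₂)) * (2:ℝ) ^ s₂) * w ^ s₂ := by rw [h7]; ring
          _ ≤ 2 * (2 * 2 ^ d) * w ^ s₂ := by gcongr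
          _ = _ := by ring
      have h12 : w ^ s₂ ≤ K ^ d * w ^ s := by
        have e : w ^ s₂ = w ^ (s₂ - s) * w ^ s := by
          rw [← Real.rpow_add hw0]
          congr 1
          ring
        rw [e]
        apply mul_le_mul_of_nonneg_right _ hws.le
        calc w ^ (s₂ - s) ≤ K ^ (s₂ - s) := Real.rpow_le_rpow hw0.le hwK (by linarith)
          _ ≤ K ^ (d:ℝ) := Real.rpow_le_rpow_of_exponent_le hK1 (by linarith)
          _ = K ^ d := Real.rpow_natCast _ _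
      calc ((inBall P' x u).card : ℝ) ≤ 3 ^ d * (P'.card * (2:ℝ) ^ (-(h:ℝ) * s₂)) := h1
        _ ≤ 3 ^ d * ((2 ^ (a * d + 1) * N) * (2 * u) ^ s₂) := by gcongr
        _ = 3 ^ d * N * ((2:ℝ) ^ (a * d + 1) * (2 * u) ^ s₂) := by ring
        _ ≤ 3 ^ d * N * (4 * 2 ^ d * w ^ s₂) := by gcongr
        _ ≤ 3 ^ d * N * (4 * 2 ^ d * (K ^ d * w ^ s)) := by gcongr
        _ = (4 * 6 ^ d * K ^ d) * (N * w ^ s) := by
            have : (6:ℝ) ^ d = 3 ^ d * 2 ^ d := by rw [← mul_pow]; norm_num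
            rw [this]
            ring
        _ ≤ (4 * 6 ^ d * K ^ d) * (1 + N * w ^ s) := by
            apply mul_le_mul_of_nonneg_left _ (by positivity)
            linarith
    · have h1 := card_inBall_le (P := P') (h := G') (M := 1) (fun κ => by exact_mod_cast hone κ) x
        (hh1.trans (pow_le_pow_of_le_one (by norm_num) (by norm_num) hG.le))
      have h3d : (3:ℝ) ^ d ≤ 6 ^ d := pow_le_pow_left₀ (by norm_num) (by norm_num) d
      have hNw : 0 ≤ (N:ℝ) * w ^ s := by positivity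
      calc ((inBall P' x u).card : ℝ) ≤ 3 ^ d * 1 := h1
        _ ≤ (4 * 6 ^ d * K ^ d) * 1 := by
            apply mul_le_mul_of_nonneg_right _ zero_le_one
            nlinarith
        _ ≤ _ := by
            apply mul_le_mul_of_nonneg_left _ (by positivity)
            linarith
  · have h1 : ((inBall P' x u).card : ℝ) ≤ P'.card := by
      unfold inBall
      exact_mod_cast Finset.card_filter_le _ _
    have h2 : (2:ℝ) ^ a ≤ K := by
      refine le_trans ?_ hwK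
      rw [hw]
      nlinarith
    have h3 : (2:ℝ) ^ (a * d + 1) ≤ 2 * K ^ d := by
      rw [pow_succ, pow_mul, mul_comm]
      apply mul_le_mul_of_nonneg_left _ (by norm_num)
      exact pow_le_pow_left₀ h2a.le h2 d
    have hw1 : 1 ≤ w := by
      have : (1:ℝ) ≤ 2 ^ a := one_le_pow₀ (by norm_num)
      rw [hw]
      nlinarith
    have hws1 : 1 ≤ w ^ s := Real.one_le_rpow hw1 hs
    calc ((inBall P' x u).card : ℝ) ≤ 2 ^ (a * d + 1) * N := h1.trans hN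
      _ ≤ 2 * K ^ d * N := mul_le_mul_of_nonneg_right h3 hN0
      _ ≤ (4 * 6 ^ d * K ^ d) * (N * w ^ s) := by
          have h5 : (N:ℝ) ≤ N * w ^ s := by nlinarith
          have h6 : 2 * K ^ d ≤ 4 * 6 ^ d * K ^ d := by nlinarith
          have h7 : 0 ≤ (4 * 6 ^ d * K ^ d) := by positivity
          calc 2 * K ^ d * N ≤ (4 * 6 ^ d * K ^ d) * N := mul_le_mul_of_nonneg_right h6 hN0
            _ ≤ _ := mul_le_mul_of_nonneg_left h5 h7
      _ ≤ _ := by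
          apply mul_le_mul_of_nonneg_left _ (by positivity)
          linarith

end Vale.Agent.P054.Spread
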